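/-
Row 152, generic library (helper22).  MULTIPLE HNN EXTENSIONS.
Port of Mathlib.GroupTheory.HNNExtension (Chris Hughes, Apache 2.0) to a family of stable letters.
`MHNN G A B φ`, `A B : ι → Subgroup G`, `φ i : A i ≃* B i`, relations `t i * a = φ i a * t i`.
-/
import Mathlib

set_option autoImplicit false

namespace Claimed.Agent.R152.H

open Monoid Coprod Multiplicative Subgroup Function
open HNNExtension (toSubgroup toSubgroupEquiv)

/-- The relation we quotient the coproduct by to form an `MHNN`. -/
def MHNN.con (G : Type*) [Group G] {ι : Type*} (A B : ι → Subgroup G) (φ : ∀ i, A i ≃* B i) :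
    Con (G ∗ FreeGroup ι) :=
  conGen (fun x y => ∃ (i : ι) (a : A i),
    x = inr (FreeGroup.of i) * inl (a : G) ∧
    y = inl (φ i a : G) * inr (FreeGroup.of i))

/-- The multiple HNN extension of `G` with stable letters `t i`, `t i * a * (t i)⁻¹ = φ i a`. -/
def MHNN (G : Type*) [Group G] {ι : Type*} (A B : ι → Subgroup G) (φ : ∀ i, A i ≃* B i) : Type _ :=
  (MHNN.con G A B φ).Quotient

variable {G : Type*} [Group G] {ι : Type*} {A B : ι → Subgroup G} {φ : ∀ i, A i ≃* B i}
  {H : Type*} [Group H] {M : Type*} [Monoid M]

instance MHNN.instGroup : Group (MHNN G A B φ) := by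
  delta MHNN; infer_instance

namespace MHNN

/-- The canonical embedding `G →* MHNN G A B φ` -/
def of : G →* MHNN G A B φ :=
  (MHNN.con G A B φ).mk'.comp inl

/-- The stable letters -/
def t (i : ι) : MHNN G A B φ :=
  (MHNN.con G A B φ).mk'.comp inr (FreeGroup.of i)

theorem t_mul_of (i : ι) (a : A i) :
    t i * (of (a : G) : MHNN G A B φ) = of (φ i a : G) * t i :=
  (Con.eq _).2 <| ConGen.Rel.of _ _ <| ⟨i, a, by simp⟩

theorem of_mul_t (i : ι) (b : B i) :
    (of (b : G) : MHNN G A B φ) * t i = t i * of ((φ i).symm b : G) := by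
  rw [t_mul_of]; simp

theorem equiv_eq_conj (i : ι) (a : A i) :
    (of (φ i a : G) : MHNN G A B φ) = t i * of (a : G) * (t i)⁻¹ := by
  rw [t_mul_of]; simp

theorem equiv_symm_eq_conj (i : ι) (b : B i) :
    (of ((φ i).symm b : G) : MHNN G A B φ) = (t i)⁻¹ * of (b : G) * t i := by
  rw [mul_assoc, of_mul_t]; simp

theorem inv_t_mul_of (i : ι) (b : B i) :
    (t i)⁻¹ * (of (b : G) : MHNN G A B φ) = of ((φ i).symm b : G) * (t i)⁻¹ := by
  rw [equiv_symm_eq_conj]; simp

theorem of_mul_inv_t (i : ι) (a : A i) :
    (of (a : G) : MHNN G A B φ) * (t i)⁻¹ = (t i)⁻¹ * of (φ i a : G) := by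
  rw [equiv_eq_conj]; simp [mul_assoc]

/-- Define a function `MHNN G A B φ →* H`, by defining it on `G` and the `t i` -/
def lift (f : G →* H) (x : ι → H) (hx : ∀ i (a : A i), x i * f ↑a = f (φ i a : G) * x i) :
    MHNN G A B φ →* H :=
  Con.lift _ (Coprod.lift f (FreeGroup.lift x)) (Con.conGen_le.2 <| by
    rintro _ _ ⟨i, a, rfl, rfl⟩
    simp [hx])

set_option backward.isDefEq.respectTransparency false in
@[simp]
theorem lift_t (f : G →* H) (x : ι → H) (hx : ∀ i (a : A i), x i * f ↑a = f (φ i a : G) * x i)
    (i : ι) : lift f x hx (t i) = x i := by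
  delta MHNN; simp [lift, t]

set_option backward.isDefEq.respectTransparency false in
@[simp]
theorem lift_of (f : G →* H) (x : ι → H) (hx : ∀ i (a : A i), x i * f ↑a = f (φ i a : G) * x i)
    (g : G) : lift f x hx (of g) = f g := by
  delta MHNN; simp [lift, of]

@[ext high]
theorem hom_ext {f g : MHNN G A B φ →* H}
    (hg : f.comp of = g.comp of) (ht : ∀ i, f (t i) = g (t i)) : f = g :=
  (MonoidHom.cancel_right Con.mk'_surjective).mp <|
    Coprod.hom_ext hg (FreeGroup.ext_hom _ _ ht)

set_option backward.isDefEq.respectTransparency false in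
@[elab_as_elim]
theorem induction_on {motive : MHNN G A B φ → Prop}
    (x : MHNN G A B φ) (of : ∀ g, motive (of g))
    (t : ∀ i, motive (t i)) (mul : ∀ x y, motive x → motive y → motive (x * y))
    (inv : ∀ x, motive x → motive x⁻¹) : motive x := by
  let S : Subgroup (MHNN G A B φ) :=
    { carrier := Set.ofPred motive
      one_mem' := by simpa using of 1
      mul_mem' := mul _ _
      inv_mem' := inv _ }
  let f : MHNN G A B φ →* S :=
    lift (MHNN.of.codRestrict S of)
      (fun i => ⟨MHNN.t i, t i⟩) (by intro i a; ext; simp [equiv_eq_conj, mul_assoc])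
  have hf : S.subtype.comp f = MonoidHom.id _ :=
    hom_ext (by ext; simp [f]) (by simp [f])
  change motive (MonoidHom.id _ x)
  rw [← hf]
  exact (f x).2

namespace NormalWord

variable (G A B)
/-- A choice of right transversals (containing `1` is not required here, as in Mathlib) of all
associated subgroups. -/
structure TransversalFam : Type _ where
  /-- The transversal of each subgroup -/
  set : ι → ℤˣ → Set G
  /-- We have exactly one element of each coset of the subgroup -/
  compl : ∀ i u, IsComplement (toSubgroup (A i) (B i) u : Subgroup G) (set i u)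

instance TransversalFam.nonempty : Nonempty (TransversalFam G A B) := by
  choose t ht using fun (i : ι) (u : ℤˣ) ↦ (toSubgroup (A i) (B i) u).exists_isComplement_right 1
  exact ⟨⟨t, fun i u ↦ (ht i u).1⟩⟩

/-- A reduced word is a `head`, followed by a list of pairs `((i,u),g)` standing for `t i ^ u * g`,
without any pinch `t i ^ u * g * t i ^ (-u)`, `g ∈ toSubgroup (A i) (B i) u`. -/
structure ReducedWord : Type _ where
  /-- the head -/
  head : G
  /-- the list of `t i ^ u * g` -/
  toList : List ((ι × ℤˣ) × G)
  /-- no pinch -/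
  chain : toList.IsChain (fun a b =>
    a.2 ∈ toSubgroup (A a.1.1) (B a.1.1) a.1.2 → a.1.1 = b.1.1 → a.1.2 = b.1.2)

/-- The empty reduced word. -/
@[simps]
def ReducedWord.empty : ReducedWord G A B :=
  { head := 1
    toList := []
    chain := List.isChain_nil }

variable {G A B}
variable (φ) in
/-- The product of a `ReducedWord` as an element of the `MHNN` -/
def ReducedWord.prod : ReducedWord G A B → MHNN G A B φ :=
  fun w => of w.head * (w.toList.map (fun x => t x.1.1 ^ (x.1.2 : ℤ) * of x.2)).prod

/-- Normal words. -/
structure _root_.Claimed.Agent.R152.H.MHNN.NormalWord (d : TransversalFam G A B) : Type _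
    extends ReducedWord G A B where
  /-- Every element `g : G` in the list is the chosen element of its coset -/
  mem_set : ∀ (i : ι) (u : ℤˣ) (g : G), ((i, u), g) ∈ toList → g ∈ d.set i u

variable {d : TransversalFam G A B}

@[ext]
theorem ext {w w' : NormalWord d}
    (h1 : w.head = w'.head) (h2 : w.toList = w'.toList) : w = w' := by
  rcases w with ⟨⟨⟩, _⟩; cases w'; simp_all

/-- The empty word -/
@[simps]
def empty : NormalWord d :=
  { head := 1
    toList := []
    mem_set := by simp
    chain := List.isChain_nil }

/-- The `NormalWord` representing an element `g` of the group `G`. -/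
@[simps]
def ofGroup (g : G) : NormalWord d :=
  { head := g
    toList := []
    mem_set := by simp
    chain := List.isChain_nil }

instance instInhabited : Inhabited (NormalWord d) := ⟨empty⟩

instance instMulActionBase : MulAction G (NormalWord d) :=
  { smul := fun g w => { w with head := g * w.head }
    one_smul := by simp +instances [instHSMul]
    mul_smul := by simp +instances [instHSMul, mul_assoc] }

theorem group_smul_def (g : G) (w : NormalWord d) :
    g • w = { w with head := g * w.head } := rfl

@[simp]
theorem group_smul_head (g : G) (w : NormalWord d) : (g • w).head = g * w.head := rfl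

@[simp]
theorem group_smul_toList (g : G) (w : NormalWord d) : (g • w).toList = w.toList := rfl

instance instFaithfulBase : FaithfulSMul G (NormalWord d) := ⟨by simp [group_smul_def]⟩

/-- `cons` -/
@[simps]
def cons (g : G) (i : ι) (u : ℤˣ) (w : NormalWord d) (h1 : w.head ∈ d.set i u)
    (h2 : ∀ p ∈ Option.map Prod.fst w.toList.head?,
      w.head ∈ toSubgroup (A i) (B i) u → i = p.1 → u = p.2) :
    NormalWord d :=
  { head := g,
    toList := ((i, u), w.head) :: w.toList,
    mem_set := by
      intro i' u' g' h'
      simp only [List.mem_cons, Prod.mk.injEq] at h'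
      rcases h' with ⟨⟨rfl, rfl⟩, rfl⟩ | h'
      · exact h1
      · exact w.mem_set _ _ _ h'
    chain := by
      refine List.isChain_cons.2 ⟨?_, w.chain⟩
      rintro ⟨p, g'⟩ hu' hw1
      exact h2 _ (by simp_all) hw1 }

/-- A recursor to induct on a `NormalWord`, by proving the property is preserved under `cons` -/
@[elab_as_elim]
def consRecOn {motive : NormalWord d → Sort*} (w : NormalWord d)
    (ofGroup : ∀ g, motive (ofGroup g))
    (cons : ∀ (g : G) (i : ι) (u : ℤˣ) (w : NormalWord d) (h1 : w.head ∈ d.set i u)
      (h2 : ∀ p ∈ Option.map Prod.fst w.toList.head?,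
        w.head ∈ toSubgroup (A i) (B i) u → i = p.1 → u = p.2),
      motive w → motive (cons g i u w h1 h2)) : motive w := by
  rcases w with ⟨⟨g, l, chain⟩, mem_set⟩
  induction l generalizing g with
  | nil => exact ofGroup _
  | cons a l ih =>
    exact cons g a.1.1 a.1.2
      { head := a.2
        toList := l
        mem_set := fun _ _ _ h => mem_set _ _ _ (List.mem_cons_of_mem _ h),
        chain := (List.isChain_cons.1 chain).2 }
      (mem_set a.1.1 a.1.2 a.2 List.mem_cons_self)
      (by simpa using (List.isChain_cons.1 chain).1)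
      (ih _ _ _)

@[simp]
theorem consRecOn_ofGroup {motive : NormalWord d → Sort*}
    (g : G) (ofGroup : ∀ g, motive (ofGroup g))
    (cons : ∀ (g : G) (i : ι) (u : ℤˣ) (w : NormalWord d) (h1 : w.head ∈ d.set i u)
      (h2 : ∀ p ∈ Option.map Prod.fst w.toList.head?,
        w.head ∈ toSubgroup (A i) (B i) u → i = p.1 → u = p.2),
      motive w → motive (cons g i u w h1 h2)) :
    consRecOn (.ofGroup g) ofGroup cons = ofGroup g := rfl

@[simp]
theorem consRecOn_cons {motive : NormalWord d → Sort*}
    (g : G) (i : ι) (u : ℤˣ) (w : NormalWord d) (h1 : w.head ∈ d.set i u)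
    (h2 : ∀ p ∈ Option.map Prod.fst w.toList.head?,
      w.head ∈ toSubgroup (A i) (B i) u → i = p.1 → u = p.2)
    (ofGroup : ∀ g, motive (ofGroup g))
    (cons : ∀ (g : G) (i : ι) (u : ℤˣ) (w : NormalWord d) (h1 : w.head ∈ d.set i u)
      (h2 : ∀ p ∈ Option.map Prod.fst w.toList.head?,
        w.head ∈ toSubgroup (A i) (B i) u → i = p.1 → u = p.2),
      motive w → motive (cons g i u w h1 h2)) :
    consRecOn (.cons g i u w h1 h2) ofGroup cons = cons g i u w h1 h2
      (consRecOn w ofGroup cons) := rfl

@[simp]
theorem smul_cons (g₁ g₂ : G) (i : ι) (u : ℤˣ) (w : NormalWord d) (h1 : w.head ∈ d.set i u)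
    (h2 : ∀ p ∈ Option.map Prod.fst w.toList.head?,
      w.head ∈ toSubgroup (A i) (B i) u → i = p.1 → u = p.2) :
    g₁ • cons g₂ i u w h1 h2 = cons (g₁ * g₂) i u w h1 h2 :=
  rfl

@[simp]
theorem smul_ofGroup (g₁ g₂ : G) :
    g₁ • (ofGroup g₂ : NormalWord d) = ofGroup (g₁ * g₂) := rfl

variable (φ)
variable (d)
/-- The action of `t i ^ u` on `ofGroup g`. -/
noncomputable def unitsSMulGroup (i : ι) (u : ℤˣ) (g : G) :
    (toSubgroup (A i) (B i) (-u)) × d.set i u :=
  let g' := (d.compl i u).equiv g
  (toSubgroupEquiv (φ i) u g'.1, g'.2)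

theorem unitsSMulGroup_snd (i : ι) (u : ℤˣ) (g : G) :
    (unitsSMulGroup φ d i u g).2 = ((d.compl i u).equiv g).2 := by
  rcases Int.units_eq_one_or u with rfl | rfl <;> rfl

variable {d}

/-- `Cancels i u w`: `t i ^ u` cancels with the first letter of `w`. -/
def Cancels (i : ι) (u : ℤˣ) (w : NormalWord d) : Prop :=
  (w.head ∈ (toSubgroup (A i) (B i) u : Subgroup G)) ∧
    w.toList.head?.map Prod.fst = some (i, -u)

/-- Multiplying `t^u` by `w` in the special case where cancellation happens -/
def unitsSMulWithCancel (i : ι) (u : ℤˣ) (w : NormalWord d) : Cancels i u w → NormalWord d :=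
  consRecOn w
    (by simp [Cancels, ofGroup]; tauto)
    (fun g _ _ w _ _ _ can =>
      (toSubgroupEquiv (φ i) u ⟨g, can.1⟩ : G) • w)

/-- Multiplying `t i ^u` by a `NormalWord`, `w` and putting the result in normal form. -/
noncomputable def unitsSMul (i : ι) (u : ℤˣ) (w : NormalWord d) : NormalWord d :=
  letI := Classical.dec
  if h : Cancels i u w
  then unitsSMulWithCancel φ i u w h
  else let g' := unitsSMulGroup φ d i u w.head
    cons g'.1 i u ((g'.2 * w.head⁻¹ : G) • w)
      (by simp)
      (by
        simp only [g', group_smul_toList, Option.mem_def, Option.map_eq_some_iff, Prod.exists,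
          exists_and_right, exists_eq_right, group_smul_head, inv_mul_cancel_right,
          forall_exists_index, unitsSMulGroup]
        simp only [Cancels, Option.map_eq_some_iff, Prod.exists, exists_and_right, exists_eq_right,
          not_and, not_exists] at h
        intro p x hx hmem hi
        have : w.head ∈ toSubgroup (A i) (B i) u := by
          have := (d.compl i u).rightCosetEquivalence_equiv_snd w.head
          rw [RightCosetEquivalence, rightCoset_eq_iff, mul_mem_cancel_left hmem] at this
          simp_all
        have := h this x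
        rcases p with ⟨i', u'⟩
        obtain rfl : i = i' := hi
        by_contra hne
        have hne' : u' ≠ u := fun h => hne h.symm
        exact this (by rw [hx, Int.units_ne_iff_eq_neg.1 hne']))

/-- A condition for not cancelling whose hypotheses are the same as those of the `cons` function. -/
theorem not_cancels_of_cons_hyp (i : ι) (u : ℤˣ) (w : NormalWord d)
    (h2 : ∀ p ∈ Option.map Prod.fst w.toList.head?,
      w.head ∈ toSubgroup (A i) (B i) u → i = p.1 → u = p.2) :
    ¬ Cancels i u w := by
  simp only [Cancels, Option.map_eq_some_iff, Prod.exists,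
    exists_and_right, exists_eq_right, not_and, not_exists]
  intro hw x hx
  rw [hx] at h2
  simpa using h2 (i, -u) rfl hw rfl

set_option backward.isDefEq.respectTransparency false in
theorem unitsSMul_cancels_iff (i : ι) (u : ℤˣ) (w : NormalWord d) :
    Cancels i (-u) (unitsSMul φ i u w) ↔ ¬ Cancels i u w := by
  by_cases h : Cancels i u w
  · simp only [unitsSMul, h, dite_true, not_true_eq_false, iff_false]
    induction w using consRecOn with
    | ofGroup => simp [Cancels, unitsSMulWithCancel]
    | cons g i' u' w h1 h2 _ =>
      intro hc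
      simp only [Cancels, cons_head, cons_toList, List.head?_cons,
        Option.map_some, Option.some.injEq] at h
      cases h.2
      apply not_cancels_of_cons_hyp _ _ _ h2
      simpa [Cancels, unitsSMulWithCancel,
        Subgroup.mul_mem_cancel_left] using hc
  · simp only [unitsSMul, dif_neg h]
    simpa [Cancels] using h

theorem unitsSMul_neg (i : ι) (u : ℤˣ) (w : NormalWord d) :
    unitsSMul φ i (-u) (unitsSMul φ i u w) = w := by
  rw [unitsSMul]
  split_ifs with hcan
  · set_option backward.isDefEq.respectTransparency false in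
    have hncan : ¬ Cancels i u w := (unitsSMul_cancels_iff _ _ _ _).1 hcan
    unfold unitsSMul
    simp only [dif_neg hncan]
    simp [unitsSMulWithCancel, unitsSMulGroup, (d.compl i u).equiv_snd_eq_inv_mul,
      -SetLike.coe_sort_coe]
  · have hcan2 : Cancels i u w := not_not.1 (mt (unitsSMul_cancels_iff _ _ _ _).2 hcan)
    unfold unitsSMul at hcan ⊢
    simp only [dif_pos hcan2] at hcan ⊢
    cases w using consRecOn with
    | ofGroup => simp [Cancels] at hcan2
    | cons g i' u' w h1 h2 ih =>
      clear ih
      simp only [unitsSMulGroup, SetLike.coe_sort_coe, unitsSMulWithCancel, consRecOn_cons,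
        group_smul_head,
        mul_inv_rev]
      cases hcan2.2
      have : ((d.compl i (-u)).equiv w.head).1 = 1 :=
        (d.compl i (-u)).equiv_fst_eq_one_of_mem_of_one_mem _ h1
      simpa [NormalWord.ext_iff, (d.compl i (-u)).equiv_mul_left, Units.ext_iff,
        (d.compl i (-u)).equiv_snd_eq_inv_mul]

/-- the equivalence given by multiplication on the left by `t i` -/
@[simps]
noncomputable def unitsSMulEquiv (i : ι) : NormalWord d ≃ NormalWord d :=
  { toFun := unitsSMul φ i 1
    invFun := unitsSMul φ i (-1),
    left_inv := fun _ => by rw [unitsSMul_neg]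
    right_inv := fun w => by convert! unitsSMul_neg _ _ _ w; simp }

set_option backward.isDefEq.respectTransparency false in
theorem unitsSMul_one_group_smul (i : ι) (g : A i) (w : NormalWord d) :
    unitsSMul φ i 1 ((g : G) • w) = (φ i g : G) • (unitsSMul φ i 1 w) := by
  unfold unitsSMul
  have : Cancels i 1 ((g : G) • w) ↔ Cancels i 1 w := by
    simp [Cancels, Subgroup.mul_mem_cancel_left]
  by_cases hcan : Cancels i 1 w
  · simp only [unitsSMulWithCancel, HNNExtension.toSubgroup_one, id_eq,
      HNNExtension.toSubgroup_neg_one, HNNExtension.toSubgroupEquiv_one,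
      group_smul_head, mul_inv_rev, dif_pos (this.2 hcan), dif_pos hcan]
    cases w using consRecOn
    · simp [Cancels] at hcan
    · simp only [smul_cons, consRecOn_cons]
      rw [← mul_smul, ← Subgroup.coe_mul, ← map_mul (φ i)]
      rfl
  · rw [dif_neg (mt this.1 hcan), dif_neg hcan]
    simp +instances only [HNNExtension.toSubgroup_neg_one, unitsSMulGroup,
      HNNExtension.toSubgroup_one, HNNExtension.toSubgroupEquiv_one,
      SetLike.coe_sort_coe, group_smul_head, mul_inv_rev, ← mul_smul, mul_assoc, inv_mul_cancel,
      mul_one, smul_cons]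
    congr 1
    · conv_lhs => erw [IsComplement.equiv_mul_left]
      simp_rw [HNNExtension.toSubgroup_one]
      simp only [SetLike.coe_sort_coe, map_mul, Subgroup.coe_mul]
    conv_lhs => erw [IsComplement.equiv_mul_left]
    rfl

noncomputable instance instMulAction : MulAction (MHNN G A B φ) (NormalWord d) :=
  MulAction.ofEndHom <| (MulAction.toEndHom (M := Equiv.Perm (NormalWord d))).comp
    (MHNN.lift (MulAction.toPermHom _ _) (unitsSMulEquiv φ) <| by
      intro i a
      ext : 1
      simp [unitsSMul_one_group_smul])

@[simp]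
theorem prod_group_smul (g : G) (w : NormalWord d) :
    (g • w).prod φ = of g * (w.prod φ) := by
  simp [ReducedWord.prod, mul_assoc]

set_option backward.isDefEq.respectTransparency false in
theorem of_smul_eq_smul (g : G) (w : NormalWord d) :
    (of g : MHNN G A B φ) • w = g • w := by
  simp +instances [instHSMul, SMul.smul, MulAction.toEndHom]

set_option backward.isDefEq.respectTransparency false in
theorem t_smul_eq_unitsSMul (i : ι) (w : NormalWord d) :
    (t i : MHNN G A B φ) • w = unitsSMul φ i 1 w := by
  simp +instances [instHSMul, SMul.smul, MulAction.toEndHom]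

set_option backward.isDefEq.respectTransparency false in
theorem t_pow_smul_eq_unitsSMul (i : ι) (u : ℤˣ) (w : NormalWord d) :
    (t i ^ (u : ℤ) : MHNN G A B φ) • w = unitsSMul φ i u w := by
  rcases Int.units_eq_one_or u with (rfl | rfl) <;>
    simp +instances [instHSMul, SMul.smul, MulAction.toEndHom, Equiv.Perm.inv_def]

@[simp]
theorem prod_cons (g : G) (i : ι) (u : ℤˣ) (w : NormalWord d) (h1 : w.head ∈ d.set i u)
    (h2 : ∀ p ∈ Option.map Prod.fst w.toList.head?,
      w.head ∈ toSubgroup (A i) (B i) u → i = p.1 → u = p.2) :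
    (cons g i u w h1 h2).prod φ = of g * (t i ^ (u : ℤ) * w.prod φ) := by
  simp [ReducedWord.prod, cons, mul_assoc]

set_option backward.isDefEq.respectTransparency false in
theorem prod_unitsSMul (i : ι) (u : ℤˣ) (w : NormalWord d) :
    (unitsSMul φ i u w).prod φ = (t i ^ (u : ℤ) * w.prod φ : MHNN G A B φ) := by
  rw [unitsSMul]
  split_ifs with hcan
  · cases w using consRecOn
    · simp [Cancels] at hcan
    · cases hcan.2
      simp only [unitsSMulWithCancel, id_eq, consRecOn_cons, prod_group_smul, prod_cons, zpow_neg]
      rcases Int.units_eq_one_or u with (rfl | rfl)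
      · simp [equiv_eq_conj, mul_assoc]
      · simp only [HNNExtension.toSubgroup_neg_one, HNNExtension.toSubgroupEquiv_neg_one,
          Units.val_neg, Units.val_one,
          Int.reduceNeg, zpow_neg, zpow_one, inv_inv]
        erw [equiv_symm_eq_conj, mul_assoc, mul_assoc]
  · simp only [unitsSMulGroup, SetLike.coe_sort_coe, prod_cons, prod_group_smul, map_mul, map_inv]
    rcases Int.units_eq_one_or u with (rfl | rfl)
    · simp only [HNNExtension.toSubgroup_neg_one, HNNExtension.toSubgroup_one,
        HNNExtension.toSubgroupEquiv_one, equiv_eq_conj, mul_assoc,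
        Units.val_one, zpow_one, inv_mul_cancel_left, mul_right_inj]
      erw [(d.compl i 1).equiv_snd_eq_inv_mul]
      simp [mul_assoc]
    · simp only [HNNExtension.toSubgroup_neg_one, HNNExtension.toSubgroupEquiv_neg_one,
        Units.val_neg, Units.val_one,
        Int.reduceNeg, zpow_neg, zpow_one, mul_assoc]
      erw [equiv_symm_eq_conj, (d.compl i (-1)).equiv_snd_eq_inv_mul]
      simp [mul_assoc]

@[simp]
theorem prod_empty : (empty : NormalWord d).prod φ = 1 := by
  simp [ReducedWord.prod]

@[simp]
theorem prod_smul (g : MHNN G A B φ) (w : NormalWord d) :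
    (g • w).prod φ = g * w.prod φ := by
  induction g using induction_on generalizing w with
  | of => simp [of_smul_eq_smul]
  | t => simp [t_smul_eq_unitsSMul, prod_unitsSMul]
  | mul => simp_all [mul_smul, mul_assoc]
  | inv x ih =>
    rw [← mul_right_inj x, ← ih]
    simp

@[simp]
theorem prod_smul_empty (w : NormalWord d) :
    (w.prod φ) • empty = w := by
  induction w using consRecOn with
  | ofGroup => simp [ofGroup, ReducedWord.prod, of_smul_eq_smul, group_smul_def]
  | cons g i u w h1 h2 ih =>
    rw [prod_cons, ← mul_assoc, mul_smul, ih, mul_smul, t_pow_smul_eq_unitsSMul,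
      of_smul_eq_smul, unitsSMul]
    rw [dif_neg (not_cancels_of_cons_hyp i u w h2)]
    simp only [unitsSMulGroup, (d.compl _ _).equiv_fst_eq_one_of_mem_of_one_mem (one_mem _) h1,
      (d.compl _ _).equiv_snd_eq_inv_mul, inv_one, one_mul, mul_inv_cancel, one_smul, smul_cons]
    ext <;> simp

variable (d)
/-- The equivalence between elements of the HNN extension and words in normal form. -/
noncomputable def equiv : MHNN G A B φ ≃ NormalWord d :=
  { toFun := fun g => g • empty,
    invFun := fun w => w.prod φ,
    left_inv := fun g => by simp [prod_smul]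
    right_inv := fun w => by simp }

theorem prod_injective : Injective
    (fun w => w.prod φ : NormalWord d → MHNN G A B φ) :=
  (equiv φ d).symm.injective

instance instFaithful : FaithfulSMul (MHNN G A B φ) (NormalWord d) :=
  ⟨fun h => by simpa using congr_arg (fun w => w.prod φ) (h empty)⟩

end NormalWord

open NormalWord

theorem of_injective : Function.Injective (of : G → MHNN G A B φ) := by
  rcases TransversalFam.nonempty G A B with ⟨d⟩
  refine Function.Injective.of_comp
    (f := ((· • ·) : MHNN G A B φ → NormalWord d → NormalWord d)) ?_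
  intro _ _ h
  exact eq_of_smul_eq_smul (fun w : NormalWord d =>
    by simp_all [funext_iff, of_smul_eq_smul])

namespace ReducedWord

variable (φ)

theorem exists_normalWord_prod_eq
    (d : TransversalFam G A B) (w : ReducedWord G A B) :
    ∃ w' : NormalWord d, w'.prod φ = w.prod φ ∧
      w'.toList.map Prod.fst = w.toList.map Prod.fst ∧
      ∀ p ∈ w.toList.head?.map Prod.fst,
      w'.head⁻¹ * w.head ∈ toSubgroup (A p.1) (B p.1) (-p.2) := by
  suffices ∀ w : ReducedWord G A B,
      w.head = 1 → ∃ w' : NormalWord d, w'.prod φ = w.prod φ ∧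
      w'.toList.map Prod.fst = w.toList.map Prod.fst ∧
      ∀ p ∈ w.toList.head?.map Prod.fst,
      w'.head ∈ toSubgroup (A p.1) (B p.1) (-p.2) by
    by_cases hw1 : w.head = 1
    · simp only [hw1, inv_mem_iff, mul_one]
      exact this w hw1
    · rcases this ⟨1, w.toList, w.chain⟩ rfl with ⟨w', hw'⟩
      exact ⟨w.head • w', by
        simpa [ReducedWord.prod, mul_assoc] using hw'⟩
  intro w hw1
  rcases w with ⟨g, l, chain⟩
  dsimp at hw1; subst hw1
  induction l with
  | nil =>
    exact
      ⟨{ head := 1
         toList := []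
         mem_set := by simp
         chain := List.isChain_nil }, by simp⟩
  | cons a l ih =>
    rcases ih (List.isChain_cons.1 chain).2 with ⟨w', hw'1, hw'2, hw'3⟩
    clear ih
    refine ⟨(t a.1.1 ^(a.1.2 : ℤ) * of a.2 : MHNN G A B φ) • w', ?_, ?_⟩
    · rw [prod_smul, hw'1]
      simp [ReducedWord.prod]
    · have : ¬ Cancels a.1.1 a.1.2 (a.2 • w') := by
        simp only [Cancels, group_smul_head, group_smul_toList, Option.map_eq_some_iff,
          Prod.exists, exists_and_right, exists_eq_right, not_and, not_exists]
        intro hS x hx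
        have hx' := congr_arg (Option.map Prod.fst) hx
        rw [← List.head?_map, hw'2, List.head?_map, Option.map_some] at hx'
        have : w'.head ∈ toSubgroup (A a.1.1) (B a.1.1) a.1.2 := by
          simpa using hw'3 _ hx'
        rw [mul_mem_cancel_right this] at hS
        have : a.1.2 = -a.1.2 := by
          have hl : l ≠ [] := by rintro rfl; simp_all
          rw [List.head?_eq_some_head hl, Option.map_some, Option.some_inj] at hx'
          have h3 := (List.isChain_cons.1 chain).1 (l.head hl)
            (List.head?_eq_some_head _) hS (by rw [hx'])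
          rw [hx'] at h3
          exact h3
        simp at this
      simp [mul_smul, of_smul_eq_smul, t_pow_smul_eq_unitsSMul, unitsSMul, dif_neg this, ← hw'2]

/-- Two reduced words representing the same element have the same pattern of stable letters,
and the heads are in the same left coset of `toSubgroup (-u)`. -/
theorem map_fst_eq_and_of_prod_eq {w₁ w₂ : ReducedWord G A B}
    (hprod : w₁.prod φ = w₂.prod φ) :
    w₁.toList.map Prod.fst = w₂.toList.map Prod.fst ∧
     ∀ p ∈ w₁.toList.head?.map Prod.fst,
      w₁.head⁻¹ * w₂.head ∈ toSubgroup (A p.1) (B p.1) (-p.2) := by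
  rcases TransversalFam.nonempty G A B with ⟨d⟩
  rcases exists_normalWord_prod_eq φ d w₁ with ⟨w₁', hw₁'1, hw₁'2, hw₁'3⟩
  rcases exists_normalWord_prod_eq φ d w₂ with ⟨w₂', hw₂'1, hw₂'2, hw₂'3⟩
  have : w₁' = w₂' :=
    NormalWord.prod_injective φ d (by dsimp only; rw [hw₁'1, hw₂'1, hprod])
  subst this
  refine ⟨by rw [← hw₁'2, hw₂'2], ?_⟩
  simp only [← leftCoset_eq_iff] at *
  intro u hu
  rw [← hw₁'3 _ hu, ← hw₂'3 _]
  rwa [← List.head?_map, ← hw₂'2, hw₁'2, List.head?_map]

/-- **Britton's Lemma**. Any reduced word whose product is an element of `G`, has no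
stable letters. -/
theorem toList_eq_nil_of_mem_of_range (w : ReducedWord G A B)
    (hw : w.prod φ ∈ (of.range : Subgroup (MHNN G A B φ))) :
    w.toList = [] := by
  rcases hw with ⟨g, hg⟩
  let w' : ReducedWord G A B := { ReducedWord.empty G A B with head := g }
  have : w.prod φ = w'.prod φ := by simp [w', ReducedWord.prod, hg]
  simpa [w'] using (map_fst_eq_and_of_prod_eq φ this).1

end ReducedWord

end MHNN

end Claimed.Agent.R152.H
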