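/-
Row 152, generic library (helper22).  Reduced words in multiple HNN extensions: existence,
`cons`, comparison of two reduced words letter by letter, lift from generators.
Conventions (as in Mathlib): `t i * a = φ i a * t i` (a ∈ A i); `toSubgroup (A i) (B i) 1 = A i`,
`toSubgroup (A i) (B i) (-1) = B i`; for `c ∈ toSubgroup u`: `t^u * c = toSubgroupEquiv u c * t^u`.
A reduced word `(g₀, [((i₁,u₁),g₁), …])` stands for `g₀ t_{i₁}^{u₁} g₁ t_{i₂}^{u₂} g₂ …`.
-/
import Claimed.Agent.R152.H.MHNN

set_option autoImplicit false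

namespace Claimed.Agent.R152.H

open Subgroup Function
open HNNExtension (toSubgroup toSubgroupEquiv)

variable {G : Type*} [Group G] {ι : Type*} {A B : ι → Subgroup G} {φ : ∀ i, A i ≃* B i}
  {H : Type*} [Group H]

namespace MHNN

open NormalWord

/-- `t^u * c = ψ_u(c) * t^u` for `c ∈ toSubgroup u`. -/
theorem t_zpow_mul_of (i : ι) (u : ℤˣ) (c : toSubgroup (A i) (B i) u) :
    (t i : MHNN G A B φ) ^ (u : ℤ) * of (c : G) =
      of (toSubgroupEquiv (φ i) u c : G) * t i ^ (u : ℤ) := by
  rcases Int.units_eq_one_or u with rfl | rfl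
  · rw [Units.val_one, zpow_one]
    exact t_mul_of (φ := φ) i c
  · rw [Units.val_neg, Units.val_one, zpow_neg, zpow_one]
    exact inv_t_mul_of (φ := φ) i c

/-- `b * t^u = t^u * ψ_{-u}(b)` for `b ∈ toSubgroup (-u)`. -/
theorem of_mul_t_zpow (i : ι) (u : ℤˣ) (b : toSubgroup (A i) (B i) (-u)) :
    (of (b : G) : MHNN G A B φ) * t i ^ (u : ℤ) =
      t i ^ (u : ℤ) * of (toSubgroupEquiv (φ i) (-u) b : G) := by
  rcases Int.units_eq_one_or u with rfl | rfl
  · rw [Units.val_one, zpow_one]
    exact of_mul_t (φ := φ) i b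
  · rw [Units.val_neg, Units.val_one, zpow_neg, zpow_one]
    exact of_mul_inv_t (φ := φ) i b

/-- Every element is the product of a reduced word. (Take the normal word.) -/
theorem exists_reducedWord (x : MHNN G A B φ) : ∃ w : ReducedWord G A B, w.prod φ = x := by
  rcases TransversalFam.nonempty G A B with ⟨d⟩
  exact ⟨(equiv φ d x).toReducedWord, (equiv φ d).symm_apply_apply x⟩

/-- It is enough to check the relations of `lift` on generating sets of the `A i`. -/
theorem lift_hyp_of_closure (f : G →* H) (x : ι → H) (S : ι → Set G)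
    (hS : ∀ i, closure (S i) = A i)
    (hx : ∀ i (a : A i), (a : G) ∈ S i → x i * f a = f (φ i a : G) * x i) :
    ∀ i (a : A i), x i * f a = f (φ i a : G) * x i := by
  intro i
  have key : ∀ g : G, g ∈ closure (S i) →
      ∃ hg : g ∈ A i, x i * f g = f (φ i ⟨g, hg⟩ : G) * x i := by
    intro g hg
    induction hg using closure_induction with
    | mem g hg =>
      have hgA : g ∈ A i := by rw [← hS i]; exact subset_closure hg
      exact ⟨hgA, hx i ⟨g, hgA⟩ hg⟩
    | one =>
      refine ⟨one_mem _, ?_⟩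
      have h1 : (⟨1, one_mem _⟩ : A i) = 1 := rfl
      rw [h1, map_one (φ i)]
      simp
    | mul a b _ _ iha ihb =>
      obtain ⟨ha, ea⟩ := iha
      obtain ⟨hb, eb⟩ := ihb
      refine ⟨mul_mem ha hb, ?_⟩
      have h1 : (⟨a * b, mul_mem ha hb⟩ : A i) = ⟨a, ha⟩ * ⟨b, hb⟩ := rfl
      rw [h1, map_mul (φ i), Subgroup.coe_mul, map_mul, map_mul, ← mul_assoc, ea, mul_assoc, eb,
        mul_assoc]
    | inv a _ iha =>
      obtain ⟨ha, ea⟩ := iha
      refine ⟨inv_mem ha, ?_⟩
      have h1 : (⟨a⁻¹, inv_mem ha⟩ : A i) = (⟨a, ha⟩ : A i)⁻¹ := rfl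
      rw [h1, map_inv (φ i), Subgroup.coe_inv, map_inv, map_inv, eq_inv_mul_iff_mul_eq,
        ← mul_assoc, ← ea, mul_assoc, mul_inv_cancel, mul_one]
  intro a
  obtain ⟨_, e⟩ := key a (by rw [hS i]; exact a.2)
  exact e

/-- `MHNN` is generated by `G` and the stable letters. -/
theorem closure_of_t : closure (Set.range (of : G → MHNN G A B φ) ∪ Set.range t) = ⊤ := by
  rw [eq_top_iff]
  intro x _
  induction x using induction_on with
  | of g => exact subset_closure (Or.inl ⟨g, rfl⟩)
  | t i => exact subset_closure (Or.inr ⟨i, rfl⟩)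
  | mul x y hx hy => exact mul_mem (hx trivial) (hy trivial)
  | inv x hx => exact inv_mem (hx trivial)

namespace ReducedWord

/-- Prepending `g * t i ^ u` to a reduced word when no pinch is created. -/
@[simps]
def cons (g : G) (i : ι) (u : ℤˣ) (w : ReducedWord G A B)
    (h : ∀ p ∈ Option.map Prod.fst w.toList.head?,
      w.head ∈ toSubgroup (A i) (B i) u → i = p.1 → u = p.2) : ReducedWord G A B :=
  { head := g
    toList := ((i, u), w.head) :: w.toList
    chain := by
      refine List.isChain_cons.2 ⟨?_, w.chain⟩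
      rintro ⟨p, g'⟩ hu' hw1
      exact h _ (by simp_all) hw1 }

/-- The reduced word `g`. -/
@[simps]
def ofGroup (g : G) : ReducedWord G A B :=
  { head := g, toList := [], chain := List.isChain_nil }

/-- Left multiplication of a reduced word by an element of the base. -/
@[simps]
def smulBase (g : G) (w : ReducedWord G A B) : ReducedWord G A B :=
  { w with head := g * w.head }

variable (φ)

@[simp] theorem prod_ofGroup (g : G) : (ofGroup g : ReducedWord G A B).prod φ = of g := by
  simp [ReducedWord.prod]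

@[simp] theorem prod_smulBase (g : G) (w : ReducedWord G A B) :
    (smulBase g w).prod φ = of g * w.prod φ := by
  simp [ReducedWord.prod, mul_assoc]

@[simp] theorem prod_cons (g : G) (i : ι) (u : ℤˣ) (w : ReducedWord G A B)
    (h : ∀ p ∈ Option.map Prod.fst w.toList.head?,
      w.head ∈ toSubgroup (A i) (B i) u → i = p.1 → u = p.2) :
    (cons g i u w h).prod φ = of g * (t i ^ (u : ℤ) * w.prod φ) := by
  simp [ReducedWord.prod, mul_assoc]

/-- Induction principle: every reduced word is `ofGroup g` or a `cons`. -/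
theorem cases_cons (w : ReducedWord G A B) :
    (∃ g, w = ofGroup g) ∨ ∃ g i u w' h, w = cons g i u w' h := by
  rcases w with ⟨g, l, chain⟩
  cases l with
  | nil => exact Or.inl ⟨g, rfl⟩
  | cons a l =>
    refine Or.inr ⟨g, a.1.1, a.1.2, ⟨a.2, l, (List.isChain_cons.1 chain).2⟩, ?_, rfl⟩
    simpa using (List.isChain_cons.1 chain).1

/-- COMPARISON, one letter. Two reduced words beginning with stable letters represent the same
element iff the letters agree and one can pass from one to the other by an element `b` of the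
associated subgroup: `g' = g b`, `w = ψ_{-u}(b) w'`.
Proof of `→`: `map_fst_eq_and_of_prod_eq` gives `(i,u)=(i',u')` and `b := g⁻¹ g' ∈ toSubgroup (-u)`;
cancel `of g` and use `of_mul_t_zpow`. -/
theorem cons_prod_eq_cons_prod_iff (g g' : G) (i : ι) (u : ℤˣ) (w w' : ReducedWord G A B)
    (h : ∀ p ∈ Option.map Prod.fst w.toList.head?,
      w.head ∈ toSubgroup (A i) (B i) u → i = p.1 → u = p.2)
    (h' : ∀ p ∈ Option.map Prod.fst w'.toList.head?,
      w'.head ∈ toSubgroup (A i) (B i) u → i = p.1 → u = p.2) :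
    (cons g i u w h).prod φ = (cons g' i u w' h').prod φ ↔
      ∃ b : toSubgroup (A i) (B i) (-u), g' = g * b ∧
        w.prod φ = of (toSubgroupEquiv (φ i) (-u) b : G) * w'.prod φ := by
  constructor
  · intro hprod
    have hb : g⁻¹ * g' ∈ toSubgroup (A i) (B i) (-u) :=
      (map_fst_eq_and_of_prod_eq φ hprod).2 (i, u) (by simp)
    refine ⟨⟨g⁻¹ * g', hb⟩, by simp, ?_⟩
    rw [prod_cons, prod_cons] at hprod
    have h1 : (of g' : MHNN G A B φ) = of g * of (g⁻¹ * g') := by
      rw [← map_mul]; simp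
    have h2 := of_mul_t_zpow (φ := φ) i u ⟨g⁻¹ * g', hb⟩
    rw [h1, mul_assoc, mul_right_inj, ← mul_assoc, h2, mul_assoc, mul_right_inj] at hprod
    exact hprod
  · rintro ⟨b, rfl, hw⟩
    rw [prod_cons, prod_cons, hw, map_mul, mul_assoc, mul_right_inj, ← mul_assoc, ← mul_assoc,
      of_mul_t_zpow]

/-- Different first letters: different elements. -/
theorem cons_prod_ne_of_ne (g g' : G) (i i' : ι) (u u' : ℤˣ) (w w' : ReducedWord G A B)
    (h : ∀ p ∈ Option.map Prod.fst w.toList.head?,
      w.head ∈ toSubgroup (A i) (B i) u → i = p.1 → u = p.2)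
    (h' : ∀ p ∈ Option.map Prod.fst w'.toList.head?,
      w'.head ∈ toSubgroup (A i') (B i') u' → i' = p.1 → u' = p.2)
    (hne : (i, u) ≠ (i', u')) :
    (cons g i u w h).prod φ ≠ (cons g' i' u' w' h').prod φ := by
  intro hprod
  have h1 := (map_fst_eq_and_of_prod_eq φ hprod).1
  simp only [cons_toList, List.map_cons, List.cons.injEq] at h1
  exact hne h1.1

/-- A reduced word with a stable letter is not in the base (Britton). -/
theorem cons_prod_not_mem_range (g : G) (i : ι) (u : ℤˣ) (w : ReducedWord G A B)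
    (h : ∀ p ∈ Option.map Prod.fst w.toList.head?,
      w.head ∈ toSubgroup (A i) (B i) u → i = p.1 → u = p.2) :
    (cons g i u w h).prod φ ∉ (of.range : Subgroup (MHNN G A B φ)) := by
  intro hmem
  have h1 := toList_eq_nil_of_mem_of_range φ _ hmem
  simp at h1

/-- `w.prod = 1` iff `w` is the trivial word. -/
theorem prod_eq_one_iff (w : ReducedWord G A B) :
    w.prod φ = 1 ↔ w.head = 1 ∧ w.toList = [] := by
  constructor
  · intro hw
    have h1 : w.toList = [] :=
      toList_eq_nil_of_mem_of_range φ w (by rw [hw]; exact one_mem _)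
    refine ⟨?_, h1⟩
    rw [ReducedWord.prod, h1, List.map_nil, List.prod_nil, mul_one] at hw
    exact of_injective (by rw [hw, map_one])
  · rintro ⟨h1, h2⟩
    rw [ReducedWord.prod, h1, h2, List.map_nil, List.prod_nil, mul_one, map_one]

end ReducedWord

/-- BRITTON for arbitrary (not nec. reduced) sequences. If
`g₀ t^{u₁}_{i₁} g₁ ⋯ t^{uₙ}_{iₙ} gₙ` lies in the base and `n ≥ 1`, the sequence contains a pinch:
consecutive entries `((i,u),g), ((i,-u),g')` with `g ∈ toSubgroup (A i) (B i) u`. -/
theorem exists_pinch (g₀ : G) (l : List ((ι × ℤˣ) × G)) (hl : l ≠ [])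
    (h : (of g₀ * (l.map (fun x => t x.1.1 ^ (x.1.2 : ℤ) * of x.2)).prod : MHNN G A B φ)
      ∈ (of.range : Subgroup (MHNN G A B φ))) :
    ∃ (l₁ l₂ : List ((ι × ℤˣ) × G)) (i : ι) (u : ℤˣ) (g g' : G),
      l = l₁ ++ ((i, u), g) :: ((i, -u), g') :: l₂ ∧ g ∈ toSubgroup (A i) (B i) u := by
  by_contra hcon
  have hchain : l.IsChain (fun a b =>
      a.2 ∈ toSubgroup (A a.1.1) (B a.1.1) a.1.2 → a.1.1 = b.1.1 → a.1.2 = b.1.2) := by
    rw [List.isChain_iff_forall_rel_of_append_cons_cons]
    rintro ⟨⟨i, u⟩, g⟩ ⟨⟨i', u'⟩, g'⟩ l₁ l₂ hl' hmem hi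
    dsimp only at hmem hi ⊢
    subst hi
    by_contra hne
    have hu' : u' = -u := by
      have := Int.units_ne_iff_eq_neg.mp hne
      rw [this, neg_neg]
    subst hu'
    exact hcon ⟨l₁, l₂, i, u, g, g', hl', hmem⟩
  exact hl (ReducedWord.toList_eq_nil_of_mem_of_range φ ⟨g₀, l, hchain⟩ h)

end MHNN

end Claimed.Agent.R152.H
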