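/-
Row 152, generic library (helper22).  Functoriality of multiple HNN extensions, injectivity of
induced maps, COMPATIBLE SUBGROUPS ("GGF"): `S ≤ G`, `J ⊆ ι` with `φ_i(S ∩ A_i) = S ∩ B_i` (i ∈ J).
Then `Sub S J = ⟨S, t_i (i ∈ J)⟩` meets the base in `S`, is itself the multiple HNN extension of `S`,
and membership of a reduced word is decided by absorbing from the left.
-/
import Claimed.Agent.R152.H.MHNNRed

set_option autoImplicit false

namespace Claimed.Agent.R152.H

open Subgroup Function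
open HNNExtension (toSubgroup toSubgroupEquiv)

variable {G : Type*} [Group G] {ι : Type*} {A B : ι → Subgroup G} {φ : ∀ i, A i ≃* B i}
variable {G' : Type*} [Group G'] {ι' : Type*} {A' B' : ι' → Subgroup G'}
  {φ' : ∀ i, A' i ≃* B' i}
variable {M : Type*} [Group M]

namespace MHNN

open NormalWord

/-- The map of multiple HNN extensions induced by `f : G →* G'`, `e : ι → ι'` compatible with the
data. -/
def map (f : G →* G') (e : ι → ι') (hA : ∀ i (a : A i), f a ∈ A' (e i))
    (hφ : ∀ i (a : A i), f (φ i a : G) = (φ' (e i) ⟨f a, hA i a⟩ : G')) :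
    MHNN G A B φ →* MHNN G' A' B' φ' :=
  lift (of.comp f) (fun i => t (e i)) (by
    intro i a
    have := t_mul_of (φ := φ') (e i) ⟨f a, hA i a⟩
    simpa [hφ] using this)

@[simp] theorem map_of (f : G →* G') (e : ι → ι') (hA : ∀ i (a : A i), f a ∈ A' (e i))
    (hφ : ∀ i (a : A i), f (φ i a : G) = (φ' (e i) ⟨f a, hA i a⟩ : G')) (g : G) :
    map f e hA hφ (of g) = of (f g) := by
  simp [map]

@[simp] theorem map_t (f : G →* G') (e : ι → ι') (hA : ∀ i (a : A i), f a ∈ A' (e i))
    (hφ : ∀ i (a : A i), f (φ i a : G) = (φ' (e i) ⟨f a, hA i a⟩ : G')) (i : ι) :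
    map f e hA hφ (t i) = t (e i) := by
  simp [map]

/-- INJECTIVITY. If `f`, `e` are injective and `A i = f⁻¹(A' (e i))`, `B i = f⁻¹(B' (e i))`, the
induced map is injective.
Proof. Let `map x = 1`, `x = w.prod`, `w` reduced (`exists_reducedWord`). The image sequence
`(f g₀, [((e i_k,u_k), f g_k)])` is again reduced (a pinch `f g ∈ toSubgroup (A' (e i)) (B' (e i)) u`,
`e i = e i'` gives `g ∈ toSubgroup (A i) (B i) u`, `i = i'`), its product is `map x = 1`, so by
`prod_eq_one_iff` the list is empty and `f g₀ = 1`. -/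
theorem map_injective (f : G →* G') (e : ι → ι') (hA : ∀ i (a : A i), f a ∈ A' (e i))
    (hφ : ∀ i (a : A i), f (φ i a : G) = (φ' (e i) ⟨f a, hA i a⟩ : G'))
    (hf : Injective f) (he : Injective e)
    (hA' : ∀ i g, f g ∈ A' (e i) → g ∈ A i) (hB' : ∀ i g, f g ∈ B' (e i) → g ∈ B i) :
    Injective (map (φ := φ) (φ' := φ') f e hA hφ) := by
  rw [injective_iff_map_eq_one]
  intro x hx
  obtain ⟨w, rfl⟩ := exists_reducedWord (φ := φ) x
  have hmem : ∀ (i : ι) (u : ℤˣ) (g : G), f g ∈ toSubgroup (A' (e i)) (B' (e i)) u →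
      g ∈ toSubgroup (A i) (B i) u := by
    intro i u g hg
    rcases Int.units_eq_one_or u with rfl | rfl
    · exact hA' i g hg
    · exact hB' i g hg
  let w' : ReducedWord G' A' B' :=
    { head := f w.head
      toList := w.toList.map (fun y => ((e y.1.1, y.1.2), f y.2))
      chain := by
        rw [List.isChain_map]
        refine w.chain.imp ?_
        intro a b hab h1 h2
        exact hab (hmem _ _ _ h1) (he h2) }
  have hprod : w'.prod φ' = map f e hA hφ (w.prod φ) := by
    simp only [ReducedWord.prod, w', map_mul, map_of, map_list_prod, List.map_map]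
    congr 2
    refine List.map_congr_left ?_
    intro y _
    simp only [Function.comp_apply, map_mul, map_zpow, map_t, map_of]
  have h1 := (ReducedWord.prod_eq_one_iff φ' w').1 (by rw [hprod, hx])
  have h2 : w.head = 1 := hf (by rw [map_one]; exact h1.1)
  have h3 : w.toList = [] := by
    have := h1.2
    simpa [w'] using this
  exact (ReducedWord.prod_eq_one_iff φ w).2 ⟨h2, h3⟩

/-- The range of `map`. -/
theorem range_map (f : G →* G') (e : ι → ι') (hA : ∀ i (a : A i), f a ∈ A' (e i))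
    (hφ : ∀ i (a : A i), f (φ i a : G) = (φ' (e i) ⟨f a, hA i a⟩ : G')) :
    (map (φ := φ) (φ' := φ') f e hA hφ).range =
      closure ((of : G' → MHNN G' A' B' φ') '' Set.range f ∪ t '' Set.range e) := by
  rw [MonoidHom.range_eq_map, ← closure_of_t, MonoidHom.map_closure, Set.image_union]
  congr 2
  · ext y
    constructor
    · rintro ⟨_, ⟨g, rfl⟩, rfl⟩
      exact ⟨f g, ⟨g, rfl⟩, (map_of f e hA hφ g).symm⟩
    · rintro ⟨_, ⟨g, rfl⟩, rfl⟩
      exact ⟨of g, ⟨g, rfl⟩, map_of f e hA hφ g⟩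
  · ext y
    constructor
    · rintro ⟨_, ⟨i, rfl⟩, rfl⟩
      exact ⟨e i, ⟨i, rfl⟩, (map_t f e hA hφ i).symm⟩
    · rintro ⟨_, ⟨i, rfl⟩, rfl⟩
      exact ⟨t i, ⟨i, rfl⟩, map_t f e hA hφ i⟩

/-- The stable letters freely generate a free group. (`map_injective` with the trivial group, or
directly: a reduced word in the letters is a reduced word with all `g_k = 1`... careful: `1` lies in
the associated subgroups, so `t^u 1 t^{-u}` is the only pinch, which is a free cancellation.) -/
theorem freeGroup_lift_t_injective :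
    Injective (FreeGroup.lift (t : ι → MHNN G A B φ)) := by
  let r : MHNN G A B φ →* FreeGroup ι := lift 1 FreeGroup.of (by intro i a; simp)
  have h : ∀ x : FreeGroup ι, r (FreeGroup.lift (t : ι → MHNN G A B φ) x) = x := by
    intro x
    have h1 : r.comp (FreeGroup.lift (t : ι → MHNN G A B φ)) = MonoidHom.id _ := by
      ext i
      simp [r]
    exact DFunLike.congr_fun h1 x
  intro x y hxy
  rw [← h x, ← h y, hxy]

section Compatible

variable (φ)

/-- `S`, `J` are compatible: for `i ∈ J`, `a ∈ A i`: `a ∈ S ↔ φ i a ∈ S`. -/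
def Compat (S : Subgroup G) (J : Set ι) : Prop :=
  ∀ i ∈ J, ∀ a : A i, (a : G) ∈ S ↔ (φ i a : G) ∈ S

/-- The subgroup `⟨S, t_i (i ∈ J)⟩`. -/
def Sub (S : Subgroup G) (J : Set ι) : Subgroup (MHNN G A B φ) :=
  closure ((of : G → MHNN G A B φ) '' S ∪ t '' J)

/-- Absorption from the left. `Absorb S J g l` for the sequence `g t^{u₁}_{i₁} g₁ ⋯`:
`l = []`: `g ∈ S`. `l = ((i,u),g₁) :: l'`: `i ∈ J` and there is `b ∈ toSubgroup (-u)` with `g b ∈ S`
and `Absorb (ψ_{-u}(b)⁻¹ g₁) l'`   (because `g t^u g₁ ⋯ = (g b) t^u ψ_{-u}(b)⁻¹ g₁ ⋯`). -/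
def Absorb (S : Subgroup G) (J : Set ι) : G → List ((ι × ℤˣ) × G) → Prop
  | g, [] => g ∈ S
  | g, x :: l => x.1.1 ∈ J ∧ ∃ b : toSubgroup (A x.1.1) (B x.1.1) (-x.1.2), g * (b : G) ∈ S ∧
      Absorb S J ((toSubgroupEquiv (φ x.1.1) (-x.1.2) b : G)⁻¹ * x.2) l

variable {φ}

theorem compat_toSubgroupEquiv {S : Subgroup G} {J : Set ι} (h : Compat φ S J) {i : ι} (hi : i ∈ J)
    (u : ℤˣ) (c : toSubgroup (A i) (B i) u) :
    (c : G) ∈ S ↔ (toSubgroupEquiv (φ i) u c : G) ∈ S := by
  rcases Int.units_eq_one_or u with rfl | rfl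
  · exact h i hi c
  · have h1 := h i hi ((φ i).symm c)
    have h2 : φ i ((φ i).symm c) = c := (φ i).apply_symm_apply c
    rw [h2] at h1
    exact h1.symm

theorem of_mem_sub {S : Subgroup G} (J : Set ι) {s : G} (hs : s ∈ S) :
    (of s : MHNN G A B φ) ∈ Sub φ S J :=
  Subgroup.subset_closure (Or.inl ⟨s, hs, rfl⟩)

theorem t_zpow_mem_sub (S : Subgroup G) {J : Set ι} {i : ι} (hi : i ∈ J) (n : ℤ) :
    (t i : MHNN G A B φ) ^ n ∈ Sub φ S J := by
  have h1 : (t i : MHNN G A B φ) ∈ Sub φ S J := Subgroup.subset_closure (Or.inr ⟨i, hi, rfl⟩)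
  exact zpow_mem h1 n

/-- Easy direction (no compatibility needed): an absorbable sequence lies in `Sub`. -/
theorem prod_mem_sub_of_absorb (S : Subgroup G) (J : Set ι) (g : G) (l : List ((ι × ℤˣ) × G))
    (h : Absorb φ S J g l) :
    (of g * (l.map (fun x => t x.1.1 ^ (x.1.2 : ℤ) * of x.2)).prod : MHNN G A B φ) ∈ Sub φ S J := by
  induction l generalizing g with
  | nil =>
    simpa using of_mem_sub (φ := φ) J (show g ∈ S from h)
  | cons x l ih =>
    obtain ⟨hJ, b, hb, hrest⟩ := h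
    have h1 := ih _ hrest
    have h2 := of_mul_t_zpow (φ := φ) x.1.1 x.1.2 b
    have e : (of g * (((x :: l).map (fun x => t x.1.1 ^ (x.1.2 : ℤ) * of x.2)).prod) :
        MHNN G A B φ) = of (g * (b : G)) * (t x.1.1 ^ (x.1.2 : ℤ) *
          (of ((toSubgroupEquiv (φ x.1.1) (-x.1.2) b : G)⁻¹ * x.2) *
            (l.map (fun x => t x.1.1 ^ (x.1.2 : ℤ) * of x.2)).prod)) := by
      rw [List.map_cons, List.prod_cons, map_mul, map_mul, map_inv, mul_assoc (of g),
        ← mul_assoc (of (b : G)), h2]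
      simp only [mul_assoc, mul_inv_cancel_left]
    rw [e]
    exact mul_mem (of_mem_sub J hb) (mul_mem (t_zpow_mem_sub S hJ _) h1)

/-- Every element of `Sub S J` is the product of a REDUCED word with letters in `J` and all entries
in `S`.  Proof: `Sub S J` is the range of `map` from the multiple HNN extension of `S` with letters
`J` (see `subEquiv`), reduced words there map to reduced words. Or directly by closure induction:
the set of such products is closed under left multiplication by `of s`, `t_i^{±1}` (if a pinch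
appears, `g ∈ S ∩ toSubgroup u`, replace by `ψ_u(g) ∈ S` using compatibility). -/
theorem exists_reducedWord_of_mem_sub {S : Subgroup G} {J : Set ι} (h : Compat φ S J)
    {x : MHNN G A B φ} (hx : x ∈ Sub φ S J) :
    ∃ w : ReducedWord G A B, w.prod φ = x ∧ w.head ∈ S ∧
      ∀ y ∈ w.toList, y.1.1 ∈ J ∧ y.2 ∈ S := by
  have hof : ∀ (s : G), s ∈ S → ∀ y : MHNN G A B φ,
      (∃ w : ReducedWord G A B, w.prod φ = y ∧ w.head ∈ S ∧
        ∀ z ∈ w.toList, z.1.1 ∈ J ∧ z.2 ∈ S) →
      ∃ w : ReducedWord G A B, w.prod φ = of s * y ∧ w.head ∈ S ∧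
        ∀ z ∈ w.toList, z.1.1 ∈ J ∧ z.2 ∈ S := by
    rintro s hs y ⟨w, rfl, hw1, hw2⟩
    exact ⟨ReducedWord.smulBase s w, by simp, S.mul_mem hs hw1, hw2⟩
  have ht : ∀ (i : ι), i ∈ J → ∀ (u : ℤˣ) (y : MHNN G A B φ),
      (∃ w : ReducedWord G A B, w.prod φ = y ∧ w.head ∈ S ∧
        ∀ z ∈ w.toList, z.1.1 ∈ J ∧ z.2 ∈ S) →
      ∃ w : ReducedWord G A B, w.prod φ = t i ^ (u : ℤ) * y ∧ w.head ∈ S ∧
        ∀ z ∈ w.toList, z.1.1 ∈ J ∧ z.2 ∈ S := by
    rintro i hi u y ⟨w, rfl, hw1, hw2⟩
    by_cases hp : ∀ p ∈ Option.map Prod.fst w.toList.head?,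
        w.head ∈ toSubgroup (A i) (B i) u → i = p.1 → u = p.2
    · refine ⟨ReducedWord.cons 1 i u w hp, by simp, S.one_mem, ?_⟩
      intro z hz
      simp only [ReducedWord.cons_toList, List.mem_cons] at hz
      rcases hz with rfl | hz
      · exact ⟨hi, hw1⟩
      · exact hw2 z hz
    · push Not at hp
      obtain ⟨p, hp1, hmem, hip, hup⟩ := hp
      rcases ReducedWord.cases_cons w with ⟨g, rfl⟩ | ⟨g, i', u', w', h', rfl⟩
      · simp at hp1
      · simp only [ReducedWord.cons_toList, List.head?_cons, Option.map_some, Option.mem_def,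
          Option.some.injEq] at hp1
        subst hp1
        simp only at hip hup
        subst hip
        have hu' : u' = -u := Int.units_ne_iff_eq_neg.1 (fun e => hup e.symm)
        subst hu'
        simp only [ReducedWord.cons_head] at hmem hw1
        have hw' : w'.head ∈ S := (hw2 ((i, -u), w'.head) (by simp)).2
        refine ⟨ReducedWord.smulBase (toSubgroupEquiv (φ i) u ⟨g, hmem⟩ : G) w', ?_,
          S.mul_mem ((compat_toSubgroupEquiv h hi u ⟨g, hmem⟩).1 hw1) hw', ?_⟩
        · have h2 := t_zpow_mul_of (φ := φ) i u ⟨g, hmem⟩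
          rw [ReducedWord.prod_smulBase, ReducedWord.prod_cons, ← mul_assoc, h2]
          simp [mul_assoc]
        · intro z hz
          exact hw2 z (by simp only [ReducedWord.cons_toList]; exact List.mem_cons_of_mem _ hz)
  unfold Sub at hx
  induction hx using closure_induction_left with
  | one => exact ⟨ReducedWord.ofGroup 1, by simp, S.one_mem, by simp⟩
  | mul_left x hx y _ ih =>
    rcases hx with ⟨s, hs, rfl⟩ | ⟨i, hi, rfl⟩
    · exact hof s hs y ih
    · simpa using ht i hi 1 y ih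
  | inv_mul_cancel x hx y _ ih =>
    rcases hx with ⟨s, hs, rfl⟩ | ⟨i, hi, rfl⟩
    · simpa using hof s⁻¹ (S.inv_mem hs) y ih
    · simpa using ht i hi (-1) y ih

/-- MEMBERSHIP CRITERION. For a reduced word `w`: `w.prod ∈ Sub S J ↔ Absorb S J w.head w.toList`.
Proof of `→`: induction on the length, comparing `w` with the reduced word `w₀` of
`exists_reducedWord_of_mem_sub` by `cons_prod_eq_cons_prod_iff`: `w₀.head = w.head * b`. -/
theorem mem_sub_iff {S : Subgroup G} {J : Set ι} (h : Compat φ S J) (w : ReducedWord G A B) :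
    w.prod φ ∈ Sub φ S J ↔ Absorb φ S J w.head w.toList := by
  refine ⟨?_, fun hab => prod_mem_sub_of_absorb S J w.head w.toList hab⟩
  have key : ∀ (n : ℕ) (w : ReducedWord G A B), w.toList.length = n → w.prod φ ∈ Sub φ S J →
      Absorb φ S J w.head w.toList := by
    intro n
    induction n with
    | zero =>
      intro w hn hw
      have hnil : w.toList = [] := List.length_eq_zero_iff.1 hn
      obtain ⟨w₀, hw₀, hh, _⟩ := exists_reducedWord_of_mem_sub h hw
      have hw' : w.prod φ = of w.head := by simp [ReducedWord.prod, hnil]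
      have h0 : w₀.toList = [] :=
        ReducedWord.toList_eq_nil_of_mem_of_range φ w₀ ⟨w.head, by rw [hw₀, hw']⟩
      have hw₀' : w₀.prod φ = of w₀.head := by simp [ReducedWord.prod, h0]
      have e : w₀.head = w.head := of_injective (φ := φ) (by rw [← hw₀', hw₀, hw'])
      rw [hnil]
      show w.head ∈ S
      rw [← e]
      exact hh
    | succ n ih =>
      intro w hn hw
      obtain ⟨w₀, hw₀, hh, hl⟩ := exists_reducedWord_of_mem_sub h hw
      rcases ReducedWord.cases_cons w with ⟨g, rfl⟩ | ⟨g, i, u, w', h', rfl⟩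
      · simp at hn
      rcases ReducedWord.cases_cons w₀ with ⟨g₀, rfl⟩ | ⟨g₀, i₀, u₀, w₀', h₀', rfl⟩
      · have := (ReducedWord.map_fst_eq_and_of_prod_eq φ hw₀).1
        simp at this
      have hfst := (ReducedWord.map_fst_eq_and_of_prod_eq φ hw₀).1
      simp only [ReducedWord.cons_toList, List.map_cons, List.cons.injEq, Prod.mk.injEq] at hfst
      obtain ⟨⟨rfl, rfl⟩, -⟩ := hfst
      obtain ⟨b, hb, hprod⟩ :=
        (ReducedWord.cons_prod_eq_cons_prod_iff φ g g₀ i₀ u₀ w' w₀' h' h₀').1 hw₀.symm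
      have hiJ : i₀ ∈ J := (hl ((i₀, u₀), w₀'.head) (by simp)).1
      simp only [ReducedWord.cons_head] at hh
      have hw₀'mem : w₀'.prod φ ∈ Sub φ S J := by
        have e : w₀'.prod φ = (t i₀ ^ (u₀ : ℤ))⁻¹ * ((of g₀)⁻¹ *
            (ReducedWord.cons g₀ i₀ u₀ w₀' h₀').prod φ) := by
          rw [ReducedWord.prod_cons]
          simp
        rw [e, hw₀]
        exact mul_mem (inv_mem (t_zpow_mem_sub S hiJ _)) (mul_mem (inv_mem (of_mem_sub J hh)) hw)
      have h3 := ih (ReducedWord.smulBase ((toSubgroupEquiv (φ i₀) (-u₀) b : G)⁻¹) w')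
        (by simpa using hn)
        (by
          rw [ReducedWord.prod_smulBase, hprod, map_inv, inv_mul_cancel_left]
          exact hw₀'mem)
      exact ⟨hiJ, b, hb ▸ hh, h3⟩
  exact key _ w rfl

/-- `Sub S J ∩ G = S`. -/
theorem of_mem_sub_iff {S : Subgroup G} {J : Set ι} (h : Compat φ S J) (g : G) :
    (of g : MHNN G A B φ) ∈ Sub φ S J ↔ g ∈ S := by
  have h1 := mem_sub_iff h (ReducedWord.ofGroup g)
  rw [ReducedWord.prod_ofGroup] at h1
  exact h1

theorem absorb_mul_left_aux {S : Subgroup G} {J : Set ι} {s : G} (hs : s ∈ S) (g : G)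
    (l : List ((ι × ℤˣ) × G)) : Absorb φ S J (s * g) l ↔ Absorb φ S J g l := by
  cases l with
  | nil => exact S.mul_mem_cancel_left hs
  | cons x l =>
    simp only [Absorb]
    refine and_congr_right (fun _ => exists_congr (fun b => and_congr_left (fun _ => ?_)))
    rw [mul_assoc]
    exact S.mul_mem_cancel_left hs

/-- In the criterion the choice of `b` does not matter: if `g b, g b' ∈ S` then the two remainders
are absorbable simultaneously. -/
theorem absorb_indep {S : Subgroup G} {J : Set ι} (h : Compat φ S J) {i : ι} (hi : i ∈ J) (u : ℤˣ)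
    (g g₁ : G) (l : List ((ι × ℤˣ) × G)) (b b' : toSubgroup (A i) (B i) (-u))
    (hb : g * (b : G) ∈ S) (hb' : g * (b' : G) ∈ S) :
    Absorb φ S J ((toSubgroupEquiv (φ i) (-u) b : G)⁻¹ * g₁) l ↔
      Absorb φ S J ((toSubgroupEquiv (φ i) (-u) b' : G)⁻¹ * g₁) l := by
  have hc : ((b⁻¹ * b' : toSubgroup (A i) (B i) (-u)) : G) ∈ S := by
    have e : ((b⁻¹ * b' : toSubgroup (A i) (B i) (-u)) : G) = (g * (b : G))⁻¹ * (g * (b' : G)) := by
      simp only [Subgroup.coe_mul, Subgroup.coe_inv]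
      group
    rw [e]
    exact S.mul_mem (S.inv_mem hb) hb'
  have hc' := (compat_toSubgroupEquiv h hi (-u) (b⁻¹ * b')).1 hc
  have e2 : (toSubgroupEquiv (φ i) (-u) b' : G)⁻¹ * g₁ =
      (toSubgroupEquiv (φ i) (-u) (b⁻¹ * b') : G)⁻¹ *
        ((toSubgroupEquiv (φ i) (-u) b : G)⁻¹ * g₁) := by
    rw [map_mul, map_inv]
    simp only [Subgroup.coe_mul, Subgroup.coe_inv]
    group
  rw [e2]
  exact (absorb_mul_left_aux (S.inv_mem hc') _ l).symm

/-- Left multiplication of the head by `S` does not change absorbability. -/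
theorem absorb_mul_left {S : Subgroup G} {J : Set ι} {s : G} (hs : s ∈ S) (g : G)
    (l : List ((ι × ℤˣ) × G)) : Absorb φ S J (s * g) l ↔ Absorb φ S J g l := by
  exact absorb_mul_left_aux hs g l

/-- The restriction of `φ i` to `S ∩ A i → S ∩ B i` (as subgroups of `S`), `i ∈ J`. -/
def subEquivAux {S : Subgroup G} {J : Set ι} (h : Compat φ S J) (i : J) :
    ((A i).subgroupOf S) ≃* ((B i).subgroupOf S) where
  toFun a := ⟨⟨φ i ⟨a.1.1, a.2⟩, (h i i.2 ⟨a.1.1, a.2⟩).1 a.1.2⟩, (φ i ⟨a.1.1, a.2⟩).2⟩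
  invFun b := ⟨⟨(φ i).symm ⟨b.1.1, b.2⟩,
    (h i i.2 ((φ i).symm ⟨b.1.1, b.2⟩)).2 (by simp)⟩, ((φ i).symm ⟨b.1.1, b.2⟩).2⟩
  left_inv a := by
    apply Subtype.ext
    apply Subtype.ext
    have e := congrArg Subtype.val ((φ i).symm_apply_apply ⟨a.1.1, a.2⟩)
    exact e
  right_inv b := by
    apply Subtype.ext
    apply Subtype.ext
    have e := congrArg Subtype.val ((φ i).apply_symm_apply ⟨b.1.1, b.2⟩)
    exact e
  map_mul' a b := by
    apply Subtype.ext
    apply Subtype.ext
    have e := congrArg Subtype.val ((φ i).map_mul ⟨a.1.1, a.2⟩ ⟨b.1.1, b.2⟩)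
    exact e

/-- UNIVERSAL PROPERTY of `Sub S J` (= it is the multiple HNN extension of `S`): a homomorphism
`f : S →* M` and elements `x i` (i ∈ J) with `x i * f a = f (φ i a) * x i` for `a ∈ S ∩ A i` extend
uniquely to `Sub S J`.
Proof: let `E = MHNN S (A_i ⊓ S) (B_i ⊓ S) (φ_i|)` over the index type `J`; `map : E → MHNN G A B φ` is
injective (`map_injective`) with range `Sub S J` (`range_map`); compose `lift` on `E` with the
inverse. -/
theorem exists_lift_sub {S : Subgroup G} {J : Set ι} (h : Compat φ S J) (f : S →* M) (x : ι → M)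
    (hx : ∀ i ∈ J, ∀ (a : A i) (ha : (a : G) ∈ S) (ha' : (φ i a : G) ∈ S),
      x i * f ⟨a, ha⟩ = f ⟨φ i a, ha'⟩ * x i) :
    ∃ F : Sub φ S J →* M,
      (∀ (s : G) (hs : s ∈ S) (hs' : (of s : MHNN G A B φ) ∈ Sub φ S J), F ⟨of s, hs'⟩ = f ⟨s, hs⟩) ∧
      (∀ i ∈ J, ∀ hi' : (t i : MHNN G A B φ) ∈ Sub φ S J, F ⟨t i, hi'⟩ = x i) := by
  classical
  have hA : ∀ (i : J) (a : (A i).subgroupOf S), S.subtype a ∈ A (i : ι) := fun i a => a.2
  have hφ : ∀ (i : J) (a : (A i).subgroupOf S),
      S.subtype (subEquivAux h i a : S) = (φ (i : ι) ⟨S.subtype a, hA i a⟩ : G) := fun i a => rfl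
  set m : MHNN S (fun i : J => (A i).subgroupOf S) (fun i : J => (B i).subgroupOf S)
      (subEquivAux h) →* MHNN G A B φ := map S.subtype (Subtype.val : J → ι) hA hφ with hm
  have hinj : Injective m :=
    map_injective S.subtype (Subtype.val : J → ι) hA hφ S.subtype_injective Subtype.val_injective
      (fun i g hg => hg) (fun i g hg => hg)
  have hrange : m.range = Sub φ S J := by
    rw [hm, range_map]
    unfold Sub
    congr 2
    · congr 1
      ext y
      simp
    · congr 1
      ext y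
      simp
  let m' : MHNN S (fun i : J => (A i).subgroupOf S) (fun i : J => (B i).subgroupOf S)
      (subEquivAux h) →* Sub φ S J :=
    m.codRestrict (Sub φ S J) (fun e => by rw [← hrange]; exact ⟨e, rfl⟩)
  have hbij : Bijective m' := by
    constructor
    · intro a b hab
      exact hinj (congrArg Subtype.val hab)
    · rintro ⟨y, hy⟩
      rw [← hrange] at hy
      obtain ⟨e, rfl⟩ := hy
      exact ⟨e, rfl⟩
  let eqv := MulEquiv.ofBijective m' hbij
  let L : MHNN S (fun i : J => (A i).subgroupOf S) (fun i : J => (B i).subgroupOf S)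
      (subEquivAux h) →* M :=
    lift f (fun i : J => x i) (fun i a => hx i i.2 ⟨a.1.1, a.2⟩ a.1.2 (subEquivAux h i a).1.2)
  refine ⟨L.comp eqv.symm.toMonoidHom, ?_, ?_⟩
  · intro s hs hs'
    have e : eqv.symm ⟨of s, hs'⟩ = of ⟨s, hs⟩ := by
      rw [MulEquiv.symm_apply_eq]
      apply Subtype.ext
      show of s = m (of ⟨s, hs⟩)
      rw [hm, map_of]
      rfl
    show L (eqv.symm ⟨of s, hs'⟩) = _
    rw [e]
    exact lift_of _ _ _ _
  · intro i hi hi'
    have e : eqv.symm ⟨t i, hi'⟩ = t (⟨i, hi⟩ : J) := by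
      rw [MulEquiv.symm_apply_eq]
      apply Subtype.ext
      show t i = m (t (⟨i, hi⟩ : J))
      rw [hm, map_t]
    show L (eqv.symm ⟨t i, hi'⟩) = _
    rw [e]
    exact lift_t _ _ _ _

end Compatible

end MHNN

end Claimed.Agent.R152.H
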