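/-
Row 152, generic library (helper22).  Presentations of multiple HNN extensions.
-/
import Claimed.Agent.R152.H.MHNNRed

set_option autoImplicit false

namespace Claimed.Agent.R152.H

open Subgroup Function Monoid Coprod
open HNNExtension (toSubgroup toSubgroupEquiv)

variable {G : Type*} [Group G] {ι : Type*} {A B : ι → Subgroup G} {φ : ∀ i, A i ≃* B i}

namespace MHNN

/-- The HNN relators over a group `P` mapping onto the base: for `(ã, b̃) ∈ R i` the element
`t_i ã t_i⁻¹ b̃⁻¹` of `P ∗ FreeGroup ι`. -/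
def relators {P : Type*} [Group P] (R : ι → Set (P × P)) : Set (P ∗ FreeGroup ι) :=
  {x | ∃ i, ∃ r ∈ R i, x = inr (FreeGroup.of i) * inl r.1 * (inr (FreeGroup.of i))⁻¹ * (inl r.2)⁻¹}

/-- The canonical map `P ∗ FreeGroup ι →* MHNN G A B φ` for `p : P →* G`. -/
def fromCoprod {P : Type*} [Group P] (p : P →* G) : P ∗ FreeGroup ι →* MHNN G A B φ :=
  Coprod.lift (of.comp p) (FreeGroup.lift t)

@[simp] theorem fromCoprod_inl {P : Type*} [Group P] (p : P →* G) (x : P) :
    fromCoprod (φ := φ) p (inl x) = of (p x) := by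
  simp [fromCoprod]

@[simp] theorem fromCoprod_inr_of {P : Type*} [Group P] (p : P →* G) (i : ι) :
    fromCoprod (φ := φ) p (inr (FreeGroup.of i)) = t i := by
  simp [fromCoprod]

theorem fromCoprod_surjective {P : Type*} [Group P] (p : P →* G) (hp : Surjective p) :
    Surjective (fromCoprod (φ := φ) p) := by
  intro x
  induction x using induction_on with
  | of g =>
    obtain ⟨y, rfl⟩ := hp g
    exact ⟨inl y, by simp⟩
  | t i => exact ⟨inr (FreeGroup.of i), by simp⟩
  | mul x y hx hy =>
    obtain ⟨a, rfl⟩ := hx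
    obtain ⟨b, rfl⟩ := hy
    exact ⟨a * b, map_mul _ _ _⟩
  | inv x hx =>
    obtain ⟨a, rfl⟩ := hx
    exact ⟨a⁻¹, map_inv _ _⟩

/-- PRESENTATION LEMMA. Let `p : P →* G` be onto, and let `R i ⊆ P × P` be pairs `(ã, b̃)` with
`p ã ∈ A i`, `φ i (p ã) = p b̃`, such that the `p ã` generate `A i`. Then the kernel of
`P ∗ FreeGroup ι → MHNN G A B φ` is the normal closure of `ker p` and the relators `t_i ã t_i⁻¹ b̃⁻¹`.
Proof. `⊇` clear. `⊆`: let `N` be the normal closure, `E = (P ∗ FreeGroup ι) ⧸ N`. `inl` induces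
`G → E` (as `ker p ⊆ N`, `p` onto), the relation `t_i a = φ_i(a) t_i` holds in `E` for the generators
`p ã`, hence for all `a ∈ A i` (`lift_hyp_of_closure`), so `lift` gives `MHNN → E`, inverse to the
map induced by `fromCoprod` (check on generators). -/
theorem ker_fromCoprod {P : Type*} [Group P] (p : P →* G) (hp : Surjective p)
    (R : ι → Set (P × P))
    (hR : ∀ i, ∀ r ∈ R i, ∃ a : A i, p r.1 = a ∧ p r.2 = φ i a)
    (hgen : ∀ i, closure ((fun r : P × P => p r.1) '' R i) = A i) :
    (fromCoprod (φ := φ) p).ker =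
      normalClosure ((inl : P → P ∗ FreeGroup ι) '' (p.ker : Set P) ∪ relators R) := by
  set N : Subgroup (P ∗ FreeGroup ι) :=
    normalClosure ((inl : P → P ∗ FreeGroup ι) '' (p.ker : Set P) ∪ relators R) with hN
  apply le_antisymm
  · -- the hard inclusion
    have hker : p.ker ≤ ((QuotientGroup.mk' N).comp (inl : P →* P ∗ FreeGroup ι)).ker := by
      intro x hx
      rw [MonoidHom.mem_ker, MonoidHom.comp_apply, QuotientGroup.mk'_apply,
        QuotientGroup.eq_one_iff]
      exact subset_normalClosure (Or.inl ⟨x, hx, rfl⟩)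
    let g : G →* (P ∗ FreeGroup ι) ⧸ N :=
      p.liftOfSurjective hp ⟨(QuotientGroup.mk' N).comp (inl : P →* P ∗ FreeGroup ι), hker⟩
    have hg : ∀ x : P, g (p x) = QuotientGroup.mk' N (inl x) := by
      intro x
      exact MonoidHom.liftOfRightInverse_comp_apply p _ _
        ⟨(QuotientGroup.mk' N).comp (inl : P →* P ∗ FreeGroup ι), hker⟩ x
    let x : ι → (P ∗ FreeGroup ι) ⧸ N := fun i => QuotientGroup.mk' N (inr (FreeGroup.of i))
    have hx : ∀ i (a : A i), x i * g a = g (φ i a : G) * x i := by
      refine lift_hyp_of_closure g x (fun i => (fun r : P × P => p r.1) '' R i) hgen ?_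
      rintro i a ⟨r, hr, hra⟩
      obtain ⟨a', h1, h2⟩ := hR i r hr
      have haa : a' = a := Subtype.ext (by rw [← h1]; exact hra)
      subst haa
      rw [← h1, ← h2, hg, hg]
      have hrel : QuotientGroup.mk' N (inr (FreeGroup.of i) * inl r.1 *
          (inr (FreeGroup.of i))⁻¹ * (inl r.2)⁻¹) = 1 := by
        rw [QuotientGroup.mk'_apply, QuotientGroup.eq_one_iff]
        exact subset_normalClosure (Or.inr ⟨i, r, hr, rfl⟩)
      rw [map_mul, map_mul, map_mul, map_inv, map_inv, mul_inv_eq_one, mul_inv_eq_iff_eq_mul]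
        at hrel
      exact hrel
    let ψ : MHNN G A B φ →* (P ∗ FreeGroup ι) ⧸ N := lift g x hx
    have hψ : ψ.comp (fromCoprod (φ := φ) p) = QuotientGroup.mk' N := by
      apply Coprod.hom_ext
      · ext y
        simp [ψ, hg]
      · apply FreeGroup.ext_hom
        intro i
        simp [ψ, x]
    intro w hw
    have h1 : QuotientGroup.mk' N w = 1 := by
      rw [← hψ, MonoidHom.comp_apply, MonoidHom.mem_ker.1 hw, map_one]
    rwa [QuotientGroup.mk'_apply, QuotientGroup.eq_one_iff] at h1
  · apply normalClosure_le_normal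
    rintro w (⟨y, hy, rfl⟩ | ⟨i, r, hr, rfl⟩)
    · have hy' : p y = 1 := hy
      simp [MonoidHom.mem_ker, hy']
    · obtain ⟨a, h1, h2⟩ := hR i r hr
      simp only [SetLike.mem_coe, MonoidHom.mem_ker, map_mul, map_inv, fromCoprod_inl,
        fromCoprod_inr_of, h1, h2]
      rw [equiv_eq_conj]
      simp

/-- A multiple HNN extension of a finitely presented group with finitely many stable letters and
finitely generated associated subgroups is finitely presented.
Proof: `Group.IsFinitelyPresented.of_surjective` for `fromCoprod (MonoidHom.id G)` (the coproduct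
`G ∗ FreeGroup ι` is f.p. by Mathlib instances), `ker_fromCoprod` with `R i = {(a, φ i a) : a ∈ S_i}`,
`S_i` a finite generating set of `A i`; `ker id = ⊥`. -/
theorem isFinitelyPresented [Finite ι] [Group.IsFinitelyPresented G] (hA : ∀ i, (A i).FG) :
    Group.IsFinitelyPresented (MHNN G A B φ) := by
  have hS : ∀ i, ∃ S : Set G, closure S = A i ∧ S.Finite := fun i => (Subgroup.fg_iff _).1 (hA i)
  choose S hSc hSf using hS
  let R : ι → Set (G × G) := fun i =>
    (fun a : A i => ((a : G), (φ i a : G))) '' ((Subtype.val : A i → G) ⁻¹' S i)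
  have hRf : ∀ i, (R i).Finite := fun i =>
    ((hSf i).preimage Subtype.val_injective.injOn).image _
  have hker := ker_fromCoprod (φ := φ) (MonoidHom.id G) surjective_id R
    (by
      rintro i r ⟨a, -, rfl⟩
      exact ⟨a, rfl, rfl⟩)
    (by
      intro i
      rw [← hSc i]
      congr 1
      ext y
      constructor
      · rintro ⟨r, ⟨a, ha, rfl⟩, rfl⟩
        exact ha
      · intro hy
        have hyA : y ∈ A i := by rw [← hSc i]; exact subset_closure hy
        exact ⟨_, ⟨⟨y, hyA⟩, hy, rfl⟩, rfl⟩)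
  refine Group.IsFinitelyPresented.of_surjective (fromCoprod (φ := φ) (MonoidHom.id G))
    (fromCoprod_surjective _ surjective_id) ⟨_, ?_, hker.symm⟩
  apply Set.Finite.union
  · apply Set.Finite.image
    have : ((MonoidHom.id G).ker : Set G) = {1} := by
      ext y
      simp
    rw [this]
    exact Set.finite_singleton _
  · have : relators R = ⋃ i, (fun r : G × G => (inr (FreeGroup.of i) * inl r.1 *
        (inr (FreeGroup.of i))⁻¹ * (inl r.2)⁻¹ : G ∗ FreeGroup ι)) '' R i := by
      ext w
      simp only [relators, Set.mem_ofPred_eq, Set.mem_iUnion, Set.mem_image]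
      constructor
      · rintro ⟨i, r, hr, rfl⟩
        exact ⟨i, r, hr, rfl⟩
      · rintro ⟨i, r, hr, rfl⟩
        exact ⟨i, r, hr, rfl⟩
    rw [this]
    exact Set.finite_iUnion fun i => (hRf i).image _

/-- Finite generation. -/
theorem fg [Finite ι] [Group.FG G] : Group.FG (MHNN G A B φ) := by
  obtain ⟨S, hS, hSf⟩ := Group.fg_iff.1 (inferInstance : Group.FG G)
  refine Group.fg_iff.2 ⟨(of : G → MHNN G A B φ) '' S ∪ Set.range t, ?_,
    (hSf.image _).union (Set.finite_range _)⟩
  rw [eq_top_iff, ← closure_of_t (φ := φ), closure_le]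
  rintro w (⟨g, rfl⟩ | ⟨i, rfl⟩)
  · have hg : g ∈ closure S := by rw [hS]; trivial
    have : (of : G →* MHNN G A B φ) g ∈ (closure S).map (of : G →* MHNN G A B φ) :=
      mem_map_of_mem _ hg
    rw [MonoidHom.map_closure] at this
    exact closure_mono Set.subset_union_left this
  · exact subset_closure (Or.inr ⟨i, rfl⟩)

end MHNN

end Claimed.Agent.R152.H
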