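/-
Row 152, generic library (helper22).  THE t-LEVEL WITHOUT BRITTON.
For a group `H` and `C ≤ H`:   ⟨H, t | [t, C] = 1⟩  =  FreeGroup (H ⧸ C) ⋊ H,
`H` permuting the free basis `tt (xC) = x t x⁻¹` by left multiplication.
-/
import Claimed.Agent.R152.H.MHNNFp

set_option autoImplicit false

namespace Claimed.Agent.R152.H

open Subgroup Function SemidirectProduct

/-- Permutations of `α` act on `FreeGroup α`. -/
def permToAut (α : Type*) : Equiv.Perm α →* MulAut (FreeGroup α) where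
  toFun e := FreeGroup.freeGroupCongr e
  map_one' := by
    ext x
    simp [FreeGroup.freeGroupCongr]
  map_mul' e₁ e₂ := by
    ext x
    simp [FreeGroup.freeGroupCongr, FreeGroup.map.comp]

variable (H : Type*) [Group H] (C : Subgroup H)

/-- The action of `H` on `FreeGroup (H ⧸ C)`. -/
def Semi.act : H →* MulAut (FreeGroup (H ⧸ C)) :=
  (permToAut (H ⧸ C)).comp (MulAction.toPermHom H (H ⧸ C))

/-- `⟨H, t | [t,C]=1⟩` as a semidirect product. -/
abbrev Semi : Type _ := FreeGroup (H ⧸ C) ⋊[Semi.act H C] H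

variable {H C}
variable {M : Type*} [Group M]

namespace Semi

@[simp] theorem act_of (h : H) (q : H ⧸ C) :
    Semi.act H C h (FreeGroup.of q) = FreeGroup.of (h • q) := by
  simp [Semi.act, permToAut, FreeGroup.freeGroupCongr]

/-- The basis elements. -/
def tt (q : H ⧸ C) : Semi H C := inl (FreeGroup.of q)

/-- The stable letter. -/
def t : Semi H C := tt ((1 : H) : H ⧸ C)

theorem inr_mul_tt (h : H) (q : H ⧸ C) :
    (inr h : Semi H C) * tt q * (inr h)⁻¹ = tt (h • q) := by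
  unfold tt
  rw [← act_of, inl_aut, map_inv]

theorem tt_mk (x : H) : (tt (x : H ⧸ C) : Semi H C) = inr x * t * (inr x)⁻¹ := by
  unfold t
  rw [inr_mul_tt]
  congr 1
  show (x : H ⧸ C) = ((x * 1 : H) : H ⧸ C)
  rw [mul_one]

theorem inr_commute_t {c : H} (hc : c ∈ C) : (inr c : Semi H C) * t = t * inr c := by
  have h1 : (tt (c : H ⧸ C) : Semi H C) = t := by
    unfold t
    congr 1
    rw [QuotientGroup.eq]
    simpa using hc
  rw [tt_mk] at h1
  exact mul_inv_eq_iff_eq_mul.mp h1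

/-- `inr h` commutes with `t` ONLY for `h ∈ C`. -/
theorem inr_commute_t_iff (h : H) : (inr h : Semi H C) * t = t * inr h ↔ h ∈ C := by
  refine ⟨fun e => ?_, inr_commute_t⟩
  have h1 : (tt (h : H ⧸ C) : Semi H C) = t := by
    rw [tt_mk]
    exact mul_inv_eq_iff_eq_mul.mpr e
  unfold t tt at h1
  have h2 : (h : H ⧸ C) = ((1 : H) : H ⧸ C) := FreeGroup.of_injective (inl_injective h1)
  rw [QuotientGroup.eq] at h2
  simpa using h2

theorem closure_inr_t : closure (Set.range (inr : H → Semi H C) ∪ {t}) = ⊤ := by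
  set S : Subgroup (Semi H C) := closure (Set.range (inr : H → Semi H C) ∪ {t}) with hS
  have hr : ∀ h : H, (inr h : Semi H C) ∈ S := fun h =>
    subset_closure (Or.inl ⟨h, rfl⟩)
  have ht : (t : Semi H C) ∈ S := subset_closure (Or.inr rfl)
  have hl : S.comap (inl : FreeGroup (H ⧸ C) →* Semi H C) = ⊤ := by
    rw [eq_top_iff, ← FreeGroup.closure_range_of, closure_le]
    rintro _ ⟨q, rfl⟩
    induction q using QuotientGroup.induction_on with
    | H x =>
      show (inl (FreeGroup.of (x : H ⧸ C)) : Semi H C) ∈ S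
      have := tt_mk (C := C) x
      unfold tt at this
      rw [this]
      exact S.mul_mem (S.mul_mem (hr x) ht) (S.inv_mem (hr x))
  rw [eq_top_iff]
  intro x _
  rw [← inl_left_mul_inr_right x]
  refine S.mul_mem ?_ (hr _)
  have : x.left ∈ S.comap (inl : FreeGroup (H ⧸ C) →* Semi H C) := by rw [hl]; trivial
  exact this

theorem hom_ext' {F F' : Semi H C →* M} (h1 : ∀ h, F (inr h) = F' (inr h)) (h2 : F t = F' t) :
    F = F' := by
  refine MonoidHom.eq_of_eqOn_dense closure_inr_t ?_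
  rintro x (⟨h, rfl⟩ | hx)
  · exact h1 h
  · rw [Set.mem_singleton_iff.mp hx]; exact h2

/-- UNIVERSAL PROPERTY. `q ↦ f x m (f x)⁻¹` (`q = xC`) is well defined because `m` commutes with
`f C`; use `SemidirectProduct.lift (FreeGroup.lift _) f _`. -/
theorem exists_lift (f : H →* M) (m : M) (hm : ∀ c ∈ C, f c * m = m * f c) :
    ∃ F : Semi H C →* M, (∀ h, F (inr h) = f h) ∧ F t = m := by
  let g : H ⧸ C → M := fun q => Quotient.liftOn' q (fun x => f x * m * (f x)⁻¹) (by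
    intro a b hab
    rw [QuotientGroup.leftRel_apply] at hab
    have hb : b = a * (a⁻¹ * b) := by group
    have hc := hm _ hab
    show f a * m * (f a)⁻¹ = f b * m * (f b)⁻¹
    rw [hb, map_mul, mul_inv_rev, mul_assoc (f a) (f (a⁻¹ * b)) m, hc]
    group)
  have hg : ∀ x : H, g (x : H ⧸ C) = f x * m * (f x)⁻¹ := fun x => rfl
  refine ⟨SemidirectProduct.lift (FreeGroup.lift g) f ?_, fun h => lift_inr _ _ _ h, ?_⟩
  · intro h
    apply FreeGroup.ext_hom
    intro q
    induction q using QuotientGroup.induction_on with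
    | H x =>
      show FreeGroup.lift g (Semi.act H C h (FreeGroup.of (x : H ⧸ C)))
        = f h * FreeGroup.lift g (FreeGroup.of (x : H ⧸ C)) * (f h)⁻¹
      rw [act_of, FreeGroup.lift_apply_of, FreeGroup.lift_apply_of, hg]
      show g ((h * x : H) : H ⧸ C) = _
      rw [hg, map_mul, mul_inv_rev]
      group
  · unfold t tt
    rw [lift_inl, FreeGroup.lift_apply_of, hg]
    simp

/-- `Semi H C` is the HNN extension of `H` with one stable letter commuting with `C`. (Both have the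
same universal property.) -/
theorem exists_equiv_mhnn :
    ∃ e : Semi H C ≃* MHNN H (fun _ : Unit => C) (fun _ => C) (fun _ => MulEquiv.refl C),
      (∀ h, e (inr h) = MHNN.of h) ∧ e t = MHNN.t () := by
  obtain ⟨F, hF1, hF2⟩ := exists_lift (C := C)
    (MHNN.of : H →* MHNN H (fun _ : Unit => C) (fun _ => C) (fun _ => MulEquiv.refl C))
    (MHNN.t ()) (by
      intro c hc
      have := MHNN.t_mul_of (φ := fun _ : Unit => MulEquiv.refl C) () ⟨c, hc⟩
      exact this.symm)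
  let G' : MHNN H (fun _ : Unit => C) (fun _ => C) (fun _ => MulEquiv.refl C) →* Semi H C :=
    MHNN.lift (inr : H →* Semi H C) (fun _ => t) (by
      intro i a
      exact (inr_commute_t a.2).symm)
  have h1 : G'.comp F = MonoidHom.id _ := by
    apply hom_ext'
    · intro h
      show G' (F (inr h)) = inr h
      rw [hF1]; exact MHNN.lift_of _ _ _ h
    · show G' (F t) = t
      rw [hF2]; exact MHNN.lift_t _ _ _ ()
  have h2 : F.comp G' = MonoidHom.id _ := by
    apply MHNN.hom_ext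
    · ext h
      show F (G' (MHNN.of h)) = MHNN.of h
      rw [show G' (MHNN.of h) = inr h from MHNN.lift_of _ _ _ h, hF1]
    · intro i
      show F (G' (MHNN.t i)) = MHNN.t i
      rw [show G' (MHNN.t i) = t from MHNN.lift_t _ _ _ i, hF2]
  exact ⟨MonoidHom.toMulEquiv F G' h1 h2, hF1, hF2⟩

theorem isFinitelyPresented [Group.IsFinitelyPresented H] (hC : C.FG) :
    Group.IsFinitelyPresented (Semi H C) := by
  obtain ⟨e, -, -⟩ := exists_equiv_mhnn (H := H) (C := C)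
  have : Group.IsFinitelyPresented
      (MHNN H (fun _ : Unit => C) (fun _ => C) (fun _ => MulEquiv.refl C)) :=
    MHNN.isFinitelyPresented (fun _ => hC)
  exact Group.IsFinitelyPresented.equiv e.symm

/-- Letters of an element of a free group: `x ∈ closure (of '' T)` iff all letters of the reduced
word of `x` lie in `T`. -/
theorem _root_.Claimed.Agent.R152.H.freeGroup_mem_closure_of_image_iff {α : Type*} [DecidableEq α]
    (T : Set α) (x : FreeGroup α) :
    x ∈ closure (FreeGroup.of '' T) ↔ ∀ p ∈ x.toWord, p.1 ∈ T := by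
  constructor
  · intro hx
    induction hx using closure_induction with
    | mem y hy =>
      obtain ⟨a, ha, rfl⟩ := hy
      intro p hp
      rw [FreeGroup.toWord_of, List.mem_singleton] at hp
      rw [hp]; exact ha
    | one => intro p hp; simp at hp
    | mul y z _ _ hy hz =>
      intro p hp
      have := (FreeGroup.toWord_mul_sublist y z).subset hp
      rcases List.mem_append.mp this with h | h
      · exact hy p h
      · exact hz p h
    | inv y _ hy =>
      intro p hp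
      rw [FreeGroup.toWord_inv, FreeGroup.invRev, List.mem_reverse, List.mem_map] at hp
      obtain ⟨q, hq, rfl⟩ := hp
      exact hy q hq
  · intro hx
    rw [← FreeGroup.mk_toWord (x := x)]
    generalize x.toWord = L at hx
    induction L with
    | nil => exact one_mem _
    | cons p L ih =>
      have e : FreeGroup.mk (p :: L) = FreeGroup.mk [p] * FreeGroup.mk L := by
        rw [FreeGroup.mul_mk]; rfl
      rw [e]
      refine mul_mem ?_ (ih fun q hq => hx q (List.mem_cons_of_mem _ hq))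
      have hp : p.1 ∈ T := hx p List.mem_cons_self
      rcases p with ⟨a, b⟩
      cases b
      · have : FreeGroup.mk [(a, false)] = (FreeGroup.of a)⁻¹ := rfl
        rw [this]
        exact inv_mem (subset_closure ⟨a, hp, rfl⟩)
      · exact subset_closure ⟨a, hp, rfl⟩

section SubU

variable (C) (U : Subgroup H)

/-- The `U`-orbit of the base point `C` in `H ⧸ C`. -/
def orb : Set (H ⧸ C) := {q | ∃ u ∈ U, q = ((u : H) : H ⧸ C)}

/-- `P₁ = ⟨U, t⟩`. -/
def SubU : Subgroup (Semi H C) := closure ((inr : H → Semi H C) '' U ∪ {t})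

/-- `P₂ = ⟨U, t U t⁻¹⟩`. -/
def SubAlt : Subgroup (Semi H C) :=
  closure ((inr : H → Semi H C) '' U ∪ (fun u => t * inr u * t⁻¹) '' U)

variable {C U}

/-- The subgroup `K ⋊ U` of `Semi H C`, for a `U`-invariant subgroup `K` of the free group. -/
def subOf (K : Subgroup (FreeGroup (H ⧸ C))) (U : Subgroup H)
    (hK : ∀ u ∈ U, ∀ τ ∈ K, Semi.act H C u τ ∈ K) : Subgroup (Semi H C) where
  carrier := {x | x.right ∈ U ∧ x.left ∈ K}
  mul_mem' := by
    rintro a b ⟨ha1, ha2⟩ ⟨hb1, hb2⟩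
    refine ⟨?_, ?_⟩
    · rw [mul_right]
      exact U.mul_mem ha1 hb1
    · rw [mul_left]
      exact K.mul_mem ha2 (hK _ ha1 _ hb2)
  one_mem' := ⟨by rw [one_right]; exact U.one_mem, by rw [one_left]; exact K.one_mem⟩
  inv_mem' := by
    rintro a ⟨ha1, ha2⟩
    refine ⟨?_, ?_⟩
    · rw [inv_right]
      exact U.inv_mem ha1
    · rw [inv_left]
      exact hK _ (U.inv_mem ha1) _ (K.inv_mem ha2)

theorem mem_subOf {K : Subgroup (FreeGroup (H ⧸ C))} {U : Subgroup H}
    {hK : ∀ u ∈ U, ∀ τ ∈ K, Semi.act H C u τ ∈ K} {x : Semi H C} :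
    x ∈ subOf K U hK ↔ x.right ∈ U ∧ x.left ∈ K := Iff.rfl

/-- Generic construction of homomorphisms on subgroups of `K ⋊ U`. -/
theorem exists_lift_of_le (K : Subgroup (FreeGroup (H ⧸ C))) (U : Subgroup H)
    (P : Subgroup (Semi H C)) (hP : ∀ x ∈ P, x.right ∈ U ∧ x.left ∈ K)
    (Ψ : FreeGroup (H ⧸ C) →* M) (f : U →* M)
    (hΨ : ∀ (u : H) (hu : u ∈ U), ∀ τ ∈ K,
      Ψ (Semi.act H C u τ) = f ⟨u, hu⟩ * Ψ τ * (f ⟨u, hu⟩)⁻¹) :
    ∃ F : P →* M, ∀ (x : Semi H C) (hx : x ∈ P),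
      F ⟨x, hx⟩ = Ψ x.left * f ⟨x.right, (hP x hx).1⟩ := by
  refine ⟨MonoidHom.mk' (fun x => Ψ x.1.left * f ⟨x.1.right, (hP x.1 x.2).1⟩) ?_, ?_⟩
  · rintro ⟨a, ha⟩ ⟨b, hb⟩
    have h1 : (⟨(a * b).right, (hP (a * b) (P.mul_mem ha hb)).1⟩ : U)
        = ⟨a.right, (hP a ha).1⟩ * ⟨b.right, (hP b hb).1⟩ := rfl
    show Ψ (a * b).left * f ⟨(a * b).right, _⟩
      = Ψ a.left * f ⟨a.right, _⟩ * (Ψ b.left * f ⟨b.right, _⟩)
    rw [h1, mul_left, map_mul, map_mul, hΨ a.right (hP a ha).1 b.left (hP b hb).2]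
    group
  · intro x hx
    rfl

theorem act_mem_closure_orb {u : H} (hu : u ∈ U) {τ : FreeGroup (H ⧸ C)}
    (hτ : τ ∈ closure (FreeGroup.of '' orb C U)) :
    Semi.act H C u τ ∈ closure (FreeGroup.of '' orb C U) := by
  induction hτ using Subgroup.closure_induction with
  | mem x hx =>
    obtain ⟨q, ⟨v, hv, rfl⟩, rfl⟩ := hx
    rw [act_of]
    exact subset_closure ⟨_, ⟨u * v, U.mul_mem hu hv, rfl⟩, rfl⟩
  | one => rw [map_one]; exact Subgroup.one_mem _
  | mul x y _ _ hx hy => rw [map_mul]; exact Subgroup.mul_mem _ hx hy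
  | inv x _ hx => rw [map_inv]; exact Subgroup.inv_mem _ hx

theorem inr_mem_subU {u : H} (hu : u ∈ U) : (inr u : Semi H C) ∈ SubU C U :=
  subset_closure (Or.inl ⟨u, hu, rfl⟩)

theorem t_mem_subU : (t : Semi H C) ∈ SubU C U :=
  subset_closure (Or.inr rfl)

/-- `⟨U,t⟩ = FreeGroup (orbit) ⋊ U`. -/
theorem mem_subU_iff (x : Semi H C) :
    x ∈ SubU C U ↔ x.right ∈ U ∧ x.left ∈ closure (FreeGroup.of '' orb C U) := by
  constructor
  · intro hx
    have hle : SubU C U ≤ subOf (closure (FreeGroup.of '' orb C U)) U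
        (fun u hu τ hτ => act_mem_closure_orb hu hτ) := by
      refine (closure_le _).2 ?_
      rintro y (⟨u, hu, rfl⟩ | rfl)
      · exact ⟨hu, by rw [left_inr]; exact Subgroup.one_mem _⟩
      · exact ⟨U.one_mem, subset_closure ⟨_, ⟨1, U.one_mem, rfl⟩, rfl⟩⟩
    exact hle hx
  · rintro ⟨h1, h2⟩
    rw [← inl_left_mul_inr_right x]
    refine Subgroup.mul_mem _ ?_ (inr_mem_subU h1)
    generalize x.left = τ at h2
    induction h2 using Subgroup.closure_induction with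
    | mem y hy =>
      obtain ⟨q, ⟨v, hv, rfl⟩, rfl⟩ := hy
      have : (inl (FreeGroup.of ((v : H) : H ⧸ C)) : Semi H C) = inr v * t * (inr v)⁻¹ := tt_mk v
      rw [this]
      exact Subgroup.mul_mem _ (Subgroup.mul_mem _ (inr_mem_subU hv) t_mem_subU)
        (Subgroup.inv_mem _ (inr_mem_subU hv))
    | one => rw [map_one]; exact Subgroup.one_mem _
    | mul a b _ _ ha hb => rw [map_mul]; exact Subgroup.mul_mem _ ha hb
    | inv a _ ha => rw [map_inv]; exact Subgroup.inv_mem _ ha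

/-- A function on the orbit defined through representatives in `U`. -/
theorem exists_orb_fun (φ : U → M)
    (hφ : ∀ u v : U, ((u : H) : H ⧸ C) = ((v : H) : H ⧸ C) → φ u = φ v) :
    ∃ g : H ⧸ C → M, ∀ u : U, g ((u : H) : H ⧸ C) = φ u := by
  classical
  refine ⟨fun q => if h : ∃ u : U, q = ((u : H) : H ⧸ C) then φ h.choose else 1, ?_⟩
  intro u
  have h : ∃ v : U, ((u : H) : H ⧸ C) = ((v : H) : H ⧸ C) := ⟨u, rfl⟩
  simp only [dif_pos h]
  exact (hφ _ _ h.choose_spec).symm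

/-- UNIVERSAL PROPERTY of `P₁ = ⟨F(U)…⟩ = ⟨U, t | [t, U ∩ C] = 1⟩`: `f : U →* M` and `m` commuting with
`f (U ∩ C)` extend to `P₁`.
Proof: on `x = (τ,u)` put `F x = Ψ τ * f u`, `Ψ = FreeGroup.lift (q ↦ f u m (f u)⁻¹ if q = uC, u ∈ U; 1
otherwise)` (well defined), and check multiplicativity with `Ψ (u • τ) = f u Ψ τ (f u)⁻¹` for `τ` in the
closure of the orbit letters. -/
theorem exists_lift_subU (f : U →* M) (m : M)
    (hm : ∀ (c : H) (hc : c ∈ U), c ∈ C → f ⟨c, hc⟩ * m = m * f ⟨c, hc⟩) :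
    ∃ F : SubU C U →* M,
      (∀ (u : H) (hu : u ∈ U) (hu' : (inr u : Semi H C) ∈ SubU C U), F ⟨inr u, hu'⟩ = f ⟨u, hu⟩) ∧
      (∀ ht : (t : Semi H C) ∈ SubU C U, F ⟨t, ht⟩ = m) := by
  obtain ⟨g, hg⟩ := exists_orb_fun (C := C) (U := U) (fun u => f u * m * (f u)⁻¹) (by
    intro u v huv
    have hc : (u : H)⁻¹ * (v : H) ∈ C := QuotientGroup.eq.1 huv
    have hcU : (u : H)⁻¹ * (v : H) ∈ U := U.mul_mem (U.inv_mem u.2) v.2
    have hv : v = u * ⟨(u : H)⁻¹ * (v : H), hcU⟩ := by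
      ext
      simp
    have hcomm := hm _ hcU hc
    show f u * m * (f u)⁻¹ = f v * m * (f v)⁻¹
    rw [hv, map_mul, mul_assoc (f u) (f _) m, hcomm]
    group)
  have hΨ : ∀ (u : H) (hu : u ∈ U), ∀ τ ∈ closure (FreeGroup.of '' orb C U),
      FreeGroup.lift g (Semi.act H C u τ)
        = f ⟨u, hu⟩ * FreeGroup.lift g τ * (f ⟨u, hu⟩)⁻¹ := by
    intro u hu τ hτ
    induction hτ using Subgroup.closure_induction with
    | mem x hx =>
      obtain ⟨q, ⟨v, hv, rfl⟩, rfl⟩ := hx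
      rw [act_of, FreeGroup.lift_apply_of, FreeGroup.lift_apply_of]
      have h1 : u • ((v : H) : H ⧸ C) = (((⟨u * v, U.mul_mem hu hv⟩ : U) : H) : H ⧸ C) := rfl
      have h2 : ((v : H) : H ⧸ C) = (((⟨v, hv⟩ : U) : H) : H ⧸ C) := rfl
      rw [h1, hg, h2, hg]
      have h3 : (⟨u * v, U.mul_mem hu hv⟩ : U) = ⟨u, hu⟩ * ⟨v, hv⟩ := rfl
      rw [h3, map_mul]
      group
    | one => simp
    | mul a b _ _ ha hb =>
      rw [map_mul, map_mul, ha, hb, map_mul]
      group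
    | inv a _ ha =>
      rw [map_inv, map_inv, ha, map_inv]
      group
  obtain ⟨F, hF⟩ := exists_lift_of_le (closure (FreeGroup.of '' orb C U)) U (SubU C U)
    (fun x hx => (mem_subU_iff x).1 hx) (FreeGroup.lift g) f hΨ
  refine ⟨F, ?_, ?_⟩
  · intro u hu hu'
    rw [hF]
    simp
  · intro ht
    rw [hF]
    have h1 : (t : Semi H C).left = FreeGroup.of (((1 : U) : H) : H ⧸ C) := rfl
    have h2 : (⟨(t : Semi H C).right, ((mem_subU_iff (U := U) t).1 ht).1⟩ : U) = 1 := rfl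
    rw [h2, h1, FreeGroup.lift_apply_of, hg]
    simp

theorem subAlt_le_subU : SubAlt C U ≤ SubU C U := by
  refine (closure_le _).2 ?_
  rintro y (⟨u, hu, rfl⟩ | ⟨u, hu, rfl⟩)
  · exact inr_mem_subU hu
  · exact Subgroup.mul_mem _ (Subgroup.mul_mem _ t_mem_subU (inr_mem_subU hu))
      (Subgroup.inv_mem _ t_mem_subU)

theorem act_mem_closure_alt {u : H} (hu : u ∈ U) {τ : FreeGroup (H ⧸ C)}
    (hτ : τ ∈ Subgroup.closure
        ((fun q => FreeGroup.of ((1 : H) : H ⧸ C) * (FreeGroup.of q)⁻¹) '' orb C U)) :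
    Semi.act H C u τ ∈ Subgroup.closure
        ((fun q => FreeGroup.of ((1 : H) : H ⧸ C) * (FreeGroup.of q)⁻¹) '' orb C U) := by
  induction hτ using Subgroup.closure_induction with
  | mem x hx =>
    obtain ⟨q, ⟨v, hv, rfl⟩, rfl⟩ := hx
    have h1 : Semi.act H C u (FreeGroup.of ((1 : H) : H ⧸ C) * (FreeGroup.of ((v : H) : H ⧸ C))⁻¹)
        = (FreeGroup.of ((1 : H) : H ⧸ C) * (FreeGroup.of ((u : H) : H ⧸ C))⁻¹)⁻¹
          * (FreeGroup.of ((1 : H) : H ⧸ C) * (FreeGroup.of ((u * v : H) : H ⧸ C))⁻¹) := by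
      rw [map_mul, map_inv, act_of, act_of]
      have e1 : u • ((1 : H) : H ⧸ C) = ((u : H) : H ⧸ C) := by
        show ((u * 1 : H) : H ⧸ C) = _
        rw [mul_one]
      have e2 : u • ((v : H) : H ⧸ C) = ((u * v : H) : H ⧸ C) := rfl
      rw [e1, e2]
      group
    show Semi.act H C u (FreeGroup.of ((1 : H) : H ⧸ C) * (FreeGroup.of ((v : H) : H ⧸ C))⁻¹) ∈ _
    rw [h1]
    exact Subgroup.mul_mem _ (Subgroup.inv_mem _ (subset_closure ⟨_, ⟨u, hu, rfl⟩, rfl⟩))
      (subset_closure ⟨_, ⟨u * v, U.mul_mem hu hv, rfl⟩, rfl⟩)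
  | one => rw [map_one]; exact Subgroup.one_mem _
  | mul x y _ _ hx hy => rw [map_mul]; exact Subgroup.mul_mem _ hx hy
  | inv x _ hx => rw [map_inv]; exact Subgroup.inv_mem _ hx

theorem inr_mem_subAlt {u : H} (hu : u ∈ U) : (inr u : Semi H C) ∈ SubAlt C U :=
  subset_closure (Or.inl ⟨u, hu, rfl⟩)

theorem conj_mem_subAlt {u : H} (hu : u ∈ U) : (t * inr u * t⁻¹ : Semi H C) ∈ SubAlt C U :=
  subset_closure (Or.inr ⟨u, hu, rfl⟩)

theorem conj_right (u : H) : (t * inr u * t⁻¹ : Semi H C).right = u := by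
  simp [t, tt]

theorem conj_left (u : H) : (t * inr u * t⁻¹ : Semi H C).left
    = FreeGroup.of ((1 : H) : H ⧸ C) * (FreeGroup.of ((u : H) : H ⧸ C))⁻¹ := by
  have e1 : u • ((1 : H) : H ⧸ C) = ((u : H) : H ⧸ C) := by
    show ((u * 1 : H) : H ⧸ C) = _
    rw [mul_one]
  simp [t, tt, e1]

/-- Membership in `P₂` (private copy placed before `exists_lift_subAlt`). -/
theorem mem_subAlt_iff_aux (x : Semi H C) :
    x ∈ SubAlt C U ↔ x.right ∈ U ∧
      x.left ∈ Subgroup.closure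
        ((fun q => FreeGroup.of ((1 : H) : H ⧸ C) * (FreeGroup.of q)⁻¹) '' orb C U) := by
  constructor
  · intro hx
    have hle : SubAlt C U ≤ subOf (Subgroup.closure
        ((fun q => FreeGroup.of ((1 : H) : H ⧸ C) * (FreeGroup.of q)⁻¹) '' orb C U)) U
        (fun u hu τ hτ => act_mem_closure_alt hu hτ) := by
      refine (closure_le _).2 ?_
      rintro y (⟨u, hu, rfl⟩ | ⟨u, hu, rfl⟩)
      · exact ⟨hu, by rw [left_inr]; exact Subgroup.one_mem _⟩
      · refine ⟨?_, ?_⟩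
        · rw [conj_right]; exact hu
        · rw [conj_left]
          exact subset_closure ⟨_, ⟨u, hu, rfl⟩, rfl⟩
    exact hle hx
  · rintro ⟨h1, h2⟩
    rw [← inl_left_mul_inr_right x]
    refine Subgroup.mul_mem _ ?_ (inr_mem_subAlt h1)
    generalize x.left = τ at h2
    induction h2 using Subgroup.closure_induction with
    | mem y hy =>
      obtain ⟨q, ⟨v, hv, rfl⟩, rfl⟩ := hy
      have : (inl (FreeGroup.of ((1 : H) : H ⧸ C) * (FreeGroup.of ((v : H) : H ⧸ C))⁻¹) : Semi H C)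
          = (t * inr v * t⁻¹) * (inr v)⁻¹ := by
        ext
        · rw [mul_left, conj_left, conj_right]
          simp
        · rw [mul_right, conj_right]
          simp
      show (inl (FreeGroup.of ((1 : H) : H ⧸ C) * (FreeGroup.of ((v : H) : H ⧸ C))⁻¹) : Semi H C)
        ∈ _
      rw [this]
      exact Subgroup.mul_mem _ (conj_mem_subAlt hv) (Subgroup.inv_mem _ (inr_mem_subAlt hv))
    | one => rw [map_one]; exact Subgroup.one_mem _
    | mul a b _ _ ha hb => rw [map_mul]; exact Subgroup.mul_mem _ ha hb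
    | inv a _ ha => rw [map_inv]; exact Subgroup.inv_mem _ ha

/-- UNIVERSAL PROPERTY of `P₂ = U *_{U ∩ C} t U t⁻¹`: two homomorphisms `f₁ f₂ : U →* M` which agree on
`U ∩ C` define a homomorphism on `P₂`, `u ↦ f₁ u`, `t u t⁻¹ ↦ f₂ u`.
Proof: `t u t⁻¹ u⁻¹ = tt(C) tt(uC)⁻¹`. Let `Ψ = FreeGroup.lift (uC ↦ f₁ u (f₂ u)⁻¹, other ↦ 1)` (well
defined since `f₁ = f₂` on `U ∩ C`), `F (τ,u) = Ψ τ * f₁ u`. Every element of `P₂` has `u ∈ U` and `τ` in
`Alt = closure {tt(C) tt(uC)⁻¹}`, and `Ψ (u' • τ) = f₁ u' Ψ τ (f₁ u')⁻¹` for `τ ∈ Alt`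
(`u' • (tt C tt(uC)⁻¹) = (tt C tt(u'C)⁻¹)⁻¹ (tt C tt(u'uC)⁻¹)`), which gives multiplicativity. -/
theorem exists_lift_subAlt (f₁ f₂ : U →* M)
    (hf : ∀ (c : H) (hc : c ∈ U), c ∈ C → f₁ ⟨c, hc⟩ = f₂ ⟨c, hc⟩) :
    ∃ F : SubAlt C U →* M,
      (∀ (u : H) (hu : u ∈ U) (hu' : (inr u : Semi H C) ∈ SubAlt C U), F ⟨inr u, hu'⟩ = f₁ ⟨u, hu⟩) ∧
      (∀ (u : H) (hu : u ∈ U) (hu' : (t * inr u * t⁻¹ : Semi H C) ∈ SubAlt C U),
        F ⟨t * inr u * t⁻¹, hu'⟩ = f₂ ⟨u, hu⟩) := by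
  obtain ⟨g, hg⟩ := exists_orb_fun (C := C) (U := U) (fun u => f₁ u * (f₂ u)⁻¹) (by
    intro u v huv
    have hc : (u : H)⁻¹ * (v : H) ∈ C := QuotientGroup.eq.1 huv
    have hcU : (u : H)⁻¹ * (v : H) ∈ U := U.mul_mem (U.inv_mem u.2) v.2
    have hv : v = u * ⟨(u : H)⁻¹ * (v : H), hcU⟩ := by
      ext
      simp
    have heq := hf _ hcU hc
    show f₁ u * (f₂ u)⁻¹ = f₁ v * (f₂ v)⁻¹
    rw [hv, map_mul, map_mul, heq]
    group)
  have hg1 : g ((1 : H) : H ⧸ C) = 1 := by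
    have := hg 1
    simpa using this
  have hΨ : ∀ (u : H) (hu : u ∈ U), ∀ τ ∈ Subgroup.closure
        ((fun q => FreeGroup.of ((1 : H) : H ⧸ C) * (FreeGroup.of q)⁻¹) '' orb C U),
      FreeGroup.lift g (Semi.act H C u τ)
        = f₁ ⟨u, hu⟩ * FreeGroup.lift g τ * (f₁ ⟨u, hu⟩)⁻¹ := by
    intro u hu τ hτ
    induction hτ using Subgroup.closure_induction with
    | mem x hx =>
      obtain ⟨q, ⟨v, hv, rfl⟩, rfl⟩ := hx
      show FreeGroup.lift g (Semi.act H C u
          (FreeGroup.of ((1 : H) : H ⧸ C) * (FreeGroup.of ((v : H) : H ⧸ C))⁻¹))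
        = f₁ ⟨u, hu⟩ * FreeGroup.lift g
          (FreeGroup.of ((1 : H) : H ⧸ C) * (FreeGroup.of ((v : H) : H ⧸ C))⁻¹) * (f₁ ⟨u, hu⟩)⁻¹
      rw [map_mul, map_inv, act_of, act_of, map_mul, map_inv, map_mul, map_inv,
        FreeGroup.lift_apply_of, FreeGroup.lift_apply_of, FreeGroup.lift_apply_of,
        FreeGroup.lift_apply_of, hg1]
      have h0 : u • ((1 : H) : H ⧸ C) = (((⟨u, hu⟩ : U) : H) : H ⧸ C) := by
        show ((u * 1 : H) : H ⧸ C) = _
        rw [mul_one]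
      have h1 : u • ((v : H) : H ⧸ C) = (((⟨u * v, U.mul_mem hu hv⟩ : U) : H) : H ⧸ C) := rfl
      have h2 : ((v : H) : H ⧸ C) = (((⟨v, hv⟩ : U) : H) : H ⧸ C) := rfl
      rw [h0, h1, hg, hg, h2, hg]
      have h3 : (⟨u * v, U.mul_mem hu hv⟩ : U) = ⟨u, hu⟩ * ⟨v, hv⟩ := rfl
      rw [h3, map_mul, map_mul]
      group
    | one => simp
    | mul a b _ _ ha hb =>
      rw [map_mul, map_mul, ha, hb, map_mul]
      group
    | inv a _ ha =>
      rw [map_inv, map_inv, ha, map_inv]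
      group
  obtain ⟨F, hF⟩ := exists_lift_of_le _ U (SubAlt C U)
    (fun x hx => (mem_subAlt_iff_aux x).1 hx) (FreeGroup.lift g) f₁ hΨ
  refine ⟨F, ?_, ?_⟩
  · intro u hu hu'
    rw [hF]
    simp
  · intro u hu hu'
    rw [hF]
    have h2 : (⟨(t * inr u * t⁻¹ : Semi H C).right,
        ((mem_subAlt_iff_aux (U := U) _).1 hu').1⟩ : U) = ⟨u, hu⟩ := by
      ext
      exact conj_right u
    have h3 : ((u : H) : H ⧸ C) = (((⟨u, hu⟩ : U) : H) : H ⧸ C) := rfl
    rw [h2, conj_left, map_mul, map_inv, FreeGroup.lift_apply_of, FreeGroup.lift_apply_of, hg1,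
      h3, hg]
    group

/-- Membership in `P₂`: `u ∈ U` and `τ ∈ closure {tt(C) tt(uC)⁻¹ : u ∈ U}`. -/
theorem mem_subAlt_iff (x : Semi H C) :
    x ∈ SubAlt C U ↔ x.right ∈ U ∧
      x.left ∈ Subgroup.closure
        ((fun q => FreeGroup.of ((1 : H) : H ⧸ C) * (FreeGroup.of q)⁻¹) '' orb C U) :=
  mem_subAlt_iff_aux x

end SubU

end Semi

end Claimed.Agent.R152.H
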