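/-
Row 152, generic library (helper22).  Subgroups `⟨U, tt ξ⟩` of `Semi H C = FreeGroup (H ⧸ C) ⋊ H` with the
marker at an arbitrary point `ξ`, splitting of free words, length in multiple HNN extensions.
-/
import Claimed.Agent.R152.H.Semi
import Claimed.Agent.R152.H.MHNNSub

set_option autoImplicit false

namespace Claimed.Agent.R152.H

open Subgroup Function SemidirectProduct
open HNNExtension (toSubgroup toSubgroupEquiv)

/-- list version of `freeGroup_exists_split` -/
theorem freeGroup_split_list {α : Type*} (L₁ : List (α × Bool)) :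
    ∀ L₂ : List (α × Bool), FreeGroup.IsReduced L₁ → FreeGroup.IsReduced L₂ →
    ∃ M₁ M₂ : List (α × Bool), M₁ <+: L₁ ∧ M₂ <:+ L₂ ∧ FreeGroup.IsReduced (M₁ ++ M₂) ∧
      FreeGroup.mk (M₁ ++ M₂) = FreeGroup.mk (L₁ ++ L₂) := by
  induction L₁ using List.reverseRecOn with
  | nil =>
    intro L₂ _ h2
    exact ⟨[], L₂, List.prefix_rfl, List.suffix_rfl, h2, rfl⟩
  | append_singleton L a ih =>
    intro L₂ h1 h2
    cases L₂ with
    | nil => exact ⟨L ++ [a], [], List.prefix_rfl, List.suffix_rfl, by simpa using h1, rfl⟩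
    | cons b L' =>
      by_cases hab : a.1 = b.1 → a.2 = b.2
      · refine ⟨L ++ [a], b :: L', List.prefix_rfl, List.suffix_rfl, ?_, rfl⟩
        unfold FreeGroup.IsReduced at *
        rw [List.isChain_append]
        refine ⟨h1, h2, ?_⟩
        simpa using hab
      · push Not at hab
        obtain ⟨e1, e2⟩ := hab
        obtain ⟨M₁, M₂, p1, p2, hr, he⟩ :=
          ih L' (h1.infix ⟨[], [a], by simp⟩) (h2.infix ⟨[b], [], by simp⟩)
        refine ⟨M₁, M₂, p1.trans (List.prefix_append _ _), p2.trans (List.suffix_cons _ _), hr, ?_⟩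
        rw [he]
        obtain ⟨x, bx⟩ := a
        obtain ⟨y, by'⟩ := b
        simp only at e1 e2
        subst e1
        have hb : by' = !bx := by cases bx <;> cases by' <;> simp_all
        subst hb
        symm
        apply Quot.sound
        simp

/-- SPLITTING. If `τ = τ₁ τ₂` with the letters of `τ₁` in `S₁` and those of `τ₂` in `S₂`, the factors can be
chosen WITHOUT CANCELLATION.
Proof: induction on `τ₁.toWord.length`. If `τ₁.toWord ++ τ₂.toWord` is reduced we are done. Otherwise the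
last letter `y` of `τ₁.toWord` is the inverse of the first letter of `τ₂.toWord`, its generator lies in
`S₁ ∩ S₂`; replace `τ₁, τ₂` by `τ₁ y⁻¹`, `y τ₂` (words: drop the last / first letter). -/
theorem freeGroup_exists_split {α : Type*} [DecidableEq α] (S₁ S₂ : Set α) (τ₁ τ₂ : FreeGroup α)
    (h₁ : ∀ p ∈ τ₁.toWord, p.1 ∈ S₁) (h₂ : ∀ p ∈ τ₂.toWord, p.1 ∈ S₂) :
    ∃ σ₁ σ₂ : FreeGroup α, σ₁ * σ₂ = τ₁ * τ₂ ∧ (∀ p ∈ σ₁.toWord, p.1 ∈ S₁) ∧
      (∀ p ∈ σ₂.toWord, p.1 ∈ S₂) ∧ (τ₁ * τ₂).toWord = σ₁.toWord ++ σ₂.toWord := by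
  obtain ⟨M₁, M₂, p1, p2, hr, he⟩ := freeGroup_split_list τ₁.toWord τ₂.toWord
    FreeGroup.isReduced_toWord FreeGroup.isReduced_toWord
  have r1 : FreeGroup.IsReduced M₁ := hr.infix ⟨[], M₂, by simp⟩
  have r2 : FreeGroup.IsReduced M₂ := hr.infix ⟨M₁, [], by simp⟩
  have w1 : (FreeGroup.mk M₁).toWord = M₁ := by rw [FreeGroup.toWord_mk, r1.reduce_eq]
  have w2 : (FreeGroup.mk M₂).toWord = M₂ := by rw [FreeGroup.toWord_mk, r2.reduce_eq]
  have hm : FreeGroup.mk M₁ * FreeGroup.mk M₂ = τ₁ * τ₂ := by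
    rw [FreeGroup.mul_mk, he, ← FreeGroup.mul_mk, FreeGroup.mk_toWord, FreeGroup.mk_toWord]
  refine ⟨FreeGroup.mk M₁, FreeGroup.mk M₂, hm, ?_, ?_, ?_⟩
  · rw [w1]; intro p hp; exact h₁ p (p1.subset hp)
  · rw [w2]; intro p hp; exact h₂ p (p2.subset hp)
  · rw [← hm, FreeGroup.mul_mk, FreeGroup.toWord_mk, hr.reduce_eq, w1, w2]

/-- Elements of free groups on disjoint sets of letters do not cancel. -/
theorem freeGroup_toWord_mul_of_disjoint {α : Type*} [DecidableEq α] (S₁ S₂ : Set α)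
    (hS : Disjoint S₁ S₂) (τ₁ τ₂ : FreeGroup α)
    (h₁ : ∀ p ∈ τ₁.toWord, p.1 ∈ S₁) (h₂ : ∀ p ∈ τ₂.toWord, p.1 ∈ S₂) :
    (τ₁ * τ₂).toWord = τ₁.toWord ++ τ₂.toWord := by
  have hr : FreeGroup.IsReduced (τ₁.toWord ++ τ₂.toWord) := by
    unfold FreeGroup.IsReduced
    rw [List.isChain_append]
    refine ⟨FreeGroup.isReduced_toWord, FreeGroup.isReduced_toWord, ?_⟩
    intro x hx y hy hxy
    exfalso
    have hx' : x ∈ τ₁.toWord := List.mem_of_getLast? hx
    have hy' : y ∈ τ₂.toWord := List.mem_of_head? hy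
    exact Set.disjoint_left.1 hS (h₁ x hx') (hxy ▸ h₂ y hy')
  have hm : τ₁ * τ₂ = FreeGroup.mk (τ₁.toWord ++ τ₂.toWord) := by
    rw [← FreeGroup.mul_mk, FreeGroup.mk_toWord, FreeGroup.mk_toWord]
  rw [hm, FreeGroup.toWord_mk, hr.reduce_eq]

namespace Semi

variable {H : Type*} [Group H] {C : Subgroup H} {M : Type*} [Group M]

/-- The `U`-orbit of the point `ξ`. -/
def orbPt (U : Subgroup H) (ξ : H ⧸ C) : Set (H ⧸ C) := {q | ∃ u ∈ U, q = u • ξ}

/-- `⟨U, tt ξ⟩`. -/
def SubPt (U : Subgroup H) (ξ : H ⧸ C) : Subgroup (Semi H C) :=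
  closure ((inr : H → Semi H C) '' U ∪ {tt ξ})

theorem act_mem_closure_orbPt {U : Subgroup H} {ξ : H ⧸ C} {u : H} (hu : u ∈ U)
    {τ : FreeGroup (H ⧸ C)} (hτ : τ ∈ closure (FreeGroup.of '' orbPt U ξ)) :
    Semi.act H C u τ ∈ closure (FreeGroup.of '' orbPt U ξ) := by
  induction hτ using Subgroup.closure_induction with
  | mem x hx =>
    obtain ⟨q, ⟨v, hv, rfl⟩, rfl⟩ := hx
    rw [act_of]
    exact subset_closure ⟨_, ⟨u * v, U.mul_mem hu hv, (mul_smul u v ξ).symm⟩, rfl⟩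
  | one => rw [map_one]; exact Subgroup.one_mem _
  | mul x y _ _ hx hy => rw [map_mul]; exact Subgroup.mul_mem _ hx hy
  | inv x _ hx => rw [map_inv]; exact Subgroup.inv_mem _ hx

theorem inr_mem_subPt {U : Subgroup H} {ξ : H ⧸ C} {u : H} (hu : u ∈ U) :
    (inr u : Semi H C) ∈ SubPt U ξ :=
  subset_closure (Or.inl ⟨u, hu, rfl⟩)

theorem tt_mem_subPt {U : Subgroup H} {ξ : H ⧸ C} : (tt ξ : Semi H C) ∈ SubPt U ξ :=
  subset_closure (Or.inr rfl)

/-- `⟨U, tt ξ⟩ = FreeGroup (U ξ) ⋊ U`. (As `mem_subU_iff`; or conjugate: `ξ = g C`,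
`SubPt U ξ = inr g (SubU C (g⁻¹ U g)) (inr g)⁻¹`. The helpers `subOf`, `mem_subOf` of `Semi.lean` do most of
the work.) -/
theorem mem_subPt_iff (U : Subgroup H) (ξ : H ⧸ C) (x : Semi H C) :
    x ∈ SubPt U ξ ↔ x.right ∈ U ∧ x.left ∈ closure (FreeGroup.of '' orbPt U ξ) := by
  constructor
  · intro hx
    have hle : SubPt U ξ ≤ subOf (closure (FreeGroup.of '' orbPt U ξ)) U
        (fun u hu τ hτ => act_mem_closure_orbPt hu hτ) := by
      refine (closure_le _).2 ?_
      rintro y (⟨u, hu, rfl⟩ | rfl)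
      · exact ⟨hu, by rw [left_inr]; exact Subgroup.one_mem _⟩
      · exact ⟨U.one_mem, subset_closure ⟨_, ⟨1, U.one_mem, (one_smul H ξ).symm⟩, rfl⟩⟩
    exact hle hx
  · rintro ⟨h1, h2⟩
    rw [← inl_left_mul_inr_right x]
    refine Subgroup.mul_mem _ ?_ (inr_mem_subPt h1)
    generalize x.left = τ at h2
    induction h2 using Subgroup.closure_induction with
    | mem y hy =>
      obtain ⟨q, ⟨v, hv, rfl⟩, rfl⟩ := hy
      have : (inl (FreeGroup.of (v • ξ)) : Semi H C) = inr v * tt ξ * (inr v)⁻¹ :=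
        (inr_mul_tt v ξ).symm
      rw [this]
      exact Subgroup.mul_mem _ (Subgroup.mul_mem _ (inr_mem_subPt hv) tt_mem_subPt)
        (Subgroup.inv_mem _ (inr_mem_subPt hv))
    | one => rw [map_one]; exact Subgroup.one_mem _
    | mul a b _ _ ha hb => rw [map_mul]; exact Subgroup.mul_mem _ ha hb
    | inv a _ ha => rw [map_inv]; exact Subgroup.inv_mem _ ha

/-- The letters of the left component. -/
theorem mem_subPt_iff' [DecidableEq (H ⧸ C)] (U : Subgroup H) (ξ : H ⧸ C) (x : Semi H C) :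
    x ∈ SubPt U ξ ↔ x.right ∈ U ∧ ∀ p ∈ x.left.toWord, p.1 ∈ orbPt U ξ := by
  rw [mem_subPt_iff, freeGroup_mem_closure_of_image_iff]

/-- A function on the orbit of `ξ` defined through representatives in `U`. -/
theorem exists_orbPt_fun (U : Subgroup H) (ξ : H ⧸ C) (φ : U → M)
    (hφ : ∀ u v : U, (u : H) • ξ = (v : H) • ξ → φ u = φ v) :
    ∃ g : H ⧸ C → M, ∀ u : U, g ((u : H) • ξ) = φ u := by
  classical
  refine ⟨fun q => if h : ∃ u : U, q = (u : H) • ξ then φ h.choose else 1, ?_⟩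
  intro u
  have h : ∃ v : U, (u : H) • ξ = (v : H) • ξ := ⟨u, rfl⟩
  simp only [dif_pos h]
  exact (hφ _ _ h.choose_spec).symm

/-- UNIVERSAL PROPERTY of `⟨U, tt ξ⟩ = ⟨U, t | [t, Stab_U ξ] = 1⟩`. (As `exists_lift_subU`.) -/
theorem exists_lift_subPt (U : Subgroup H) (ξ : H ⧸ C) (f : U →* M) (m : M)
    (hm : ∀ (c : H) (hc : c ∈ U), c • ξ = ξ → f ⟨c, hc⟩ * m = m * f ⟨c, hc⟩) :
    ∃ F : SubPt U ξ →* M,
      (∀ (u : H) (hu : u ∈ U) (hu' : (inr u : Semi H C) ∈ SubPt U ξ), F ⟨inr u, hu'⟩ = f ⟨u, hu⟩) ∧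
      (∀ ht : (tt ξ : Semi H C) ∈ SubPt U ξ, F ⟨tt ξ, ht⟩ = m) := by
  obtain ⟨g, hg⟩ := exists_orbPt_fun U ξ (fun u => f u * m * (f u)⁻¹) (by
    intro u v huv
    have hc : ((u : H)⁻¹ * (v : H)) • ξ = ξ := by
      rw [mul_smul, ← huv, inv_smul_smul]
    have hcU : (u : H)⁻¹ * (v : H) ∈ U := U.mul_mem (U.inv_mem u.2) v.2
    have hv : v = u * ⟨(u : H)⁻¹ * (v : H), hcU⟩ := by
      ext
      simp
    have hcomm := hm _ hcU hc
    show f u * m * (f u)⁻¹ = f v * m * (f v)⁻¹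
    rw [hv, map_mul, mul_assoc (f u) (f _) m, hcomm]
    group)
  have hΨ : ∀ (u : H) (hu : u ∈ U), ∀ τ ∈ closure (FreeGroup.of '' orbPt U ξ),
      FreeGroup.lift g (Semi.act H C u τ)
        = f ⟨u, hu⟩ * FreeGroup.lift g τ * (f ⟨u, hu⟩)⁻¹ := by
    intro u hu τ hτ
    induction hτ using Subgroup.closure_induction with
    | mem x hx =>
      obtain ⟨q, ⟨v, hv, rfl⟩, rfl⟩ := hx
      rw [act_of, FreeGroup.lift_apply_of, FreeGroup.lift_apply_of]
      have h1 : u • (v • ξ) = ((⟨u * v, U.mul_mem hu hv⟩ : U) : H) • ξ := (mul_smul u v ξ).symm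
      have h2 : v • ξ = ((⟨v, hv⟩ : U) : H) • ξ := rfl
      rw [h1, hg, h2, hg]
      have h3 : (⟨u * v, U.mul_mem hu hv⟩ : U) = ⟨u, hu⟩ * ⟨v, hv⟩ := rfl
      rw [h3, map_mul]
      group
    | one => simp
    | mul a b _ _ ha hb =>
      rw [map_mul, map_mul, ha, hb, map_mul]
      group
    | inv a _ ha =>
      rw [map_inv, map_inv, ha, map_inv]
      group
  obtain ⟨F, hF⟩ := exists_lift_of_le (closure (FreeGroup.of '' orbPt U ξ)) U (SubPt U ξ)
    (fun x hx => (mem_subPt_iff U ξ x).1 hx) (FreeGroup.lift g) f hΨ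
  refine ⟨F, ?_, ?_⟩
  · intro u hu hu'
    rw [hF]
    simp
  · intro ht
    rw [hF]
    have h1 : (tt ξ : Semi H C).left = FreeGroup.of (((1 : U) : H) • ξ) := by
      show FreeGroup.of ξ = FreeGroup.of ((1 : H) • ξ)
      rw [one_smul]
    have h2 : (⟨(tt ξ : Semi H C).right, ((mem_subPt_iff U ξ (tt ξ)).1 ht).1⟩ : U) = 1 := rfl
    rw [h2, h1, FreeGroup.lift_apply_of, hg]
    simp

/-- early copy of `toWord_act`. -/
theorem toWord_act_aux [DecidableEq (H ⧸ C)] (g : H) (τ : FreeGroup (H ⧸ C)) :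
    (Semi.act H C g τ).toWord = τ.toWord.map (fun p => (g • p.1, p.2)) := by
  have h1 : Semi.act H C g τ = FreeGroup.mk (τ.toWord.map (fun p => (g • p.1, p.2))) := by
    conv_lhs => rw [← FreeGroup.mk_toWord (x := τ)]
    rfl
  rw [h1, FreeGroup.toWord_mk]
  apply FreeGroup.IsReduced.reduce_eq
  refine List.isChain_map_of_isChain _ ?_ (FreeGroup.isReduced_toWord (x := τ))
  intro a b hab h
  exact hab (smul_left_cancel g h)

/-- `(τ,g) (τ',g') = (τ · g•τ', g g')`: the letters of the product are letters of `τ` or `g`-translates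
of letters of `τ'`. (`FreeGroup.toWord_mul_sublist`, and `(act g τ').toWord = τ'.toWord.map (g • ·)`.) -/
theorem mem_toWord_mul_left [DecidableEq (H ⧸ C)] (x y : Semi H C) (p : (H ⧸ C) × Bool)
    (hp : p ∈ (x * y).left.toWord) :
    p ∈ x.left.toWord ∨ ∃ p' ∈ y.left.toWord, p = (x.right • p'.1, p'.2) := by
  rw [mul_left] at hp
  have h := (FreeGroup.toWord_mul_sublist _ _).subset hp
  rcases List.mem_append.mp h with h | h
  · exact Or.inl h
  · rw [toWord_act_aux, List.mem_map] at h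
    obtain ⟨p', hp', rfl⟩ := h
    exact Or.inr ⟨p', hp', rfl⟩

theorem toWord_act [DecidableEq (H ⧸ C)] (g : H) (τ : FreeGroup (H ⧸ C)) :
    (Semi.act H C g τ).toWord = τ.toWord.map (fun p => (g • p.1, p.2)) := by
  exact toWord_act_aux g τ

end Semi

namespace MHNN

variable {G : Type*} [Group G] {ι : Type*} {A B : ι → Subgroup G} {φ : ∀ i, A i ≃* B i}

open NormalWord

/-- The number of stable letters of a reduced word of `x`. -/
noncomputable def len (x : MHNN G A B φ) : ℕ := (exists_reducedWord x).choose.toList.length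

/-- It does not depend on the reduced word (`ReducedWord.map_fst_eq_and_of_prod_eq`). -/
theorem len_eq (w : ReducedWord G A B) : len (w.prod φ) = w.toList.length := by
  have h := (exists_reducedWord (w.prod φ)).choose_spec
  have h2 := (ReducedWord.map_fst_eq_and_of_prod_eq φ h).1
  have h3 := congrArg List.length h2
  simpa [len] using h3

theorem len_of_mul (g : G) (x : MHNN G A B φ) : len (of g * x) = len x := by
  obtain ⟨w, rfl⟩ := exists_reducedWord x
  rw [← ReducedWord.prod_smulBase, len_eq, len_eq]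
  rfl

/-- Left multiplication by a stable letter changes the length by at most one (either
`ReducedWord.cons` applies, or there is a pinch and the length drops by one). -/
theorem len_t_zpow_mul_le (i : ι) (u : ℤˣ) (x : MHNN G A B φ) :
    len (t i ^ (u : ℤ) * x) ≤ len x + 1 := by
  obtain ⟨w, rfl⟩ := exists_reducedWord x
  by_cases h : ∀ p ∈ Option.map Prod.fst w.toList.head?,
      w.head ∈ toSubgroup (A i) (B i) u → i = p.1 → u = p.2
  · have e : t i ^ (u : ℤ) * w.prod φ = (ReducedWord.cons 1 i u w h).prod φ := by simp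
    rw [e, len_eq, len_eq]
    simp
  · push Not at h
    obtain ⟨p, hp, hmem, hi, hu⟩ := h
    rcases ReducedWord.cases_cons w with ⟨g, rfl⟩ | ⟨g, i', u', w', h', rfl⟩
    · simp at hp
    · simp only [ReducedWord.cons_toList, List.head?_cons, Option.map_some, Option.mem_def,
        Option.some.injEq] at hp
      subst hp
      simp only at hi hu
      subst hi
      have hu' : u' = -u := by
        have := Int.units_ne_iff_eq_neg.mp hu
        rw [this, neg_neg]
      subst hu'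
      simp only [ReducedWord.cons_head] at hmem
      have e : t i ^ (u : ℤ) * (ReducedWord.cons g i (-u) w' h').prod φ
          = of (toSubgroupEquiv (φ i) u ⟨g, hmem⟩ : G) * w'.prod φ := by
        rw [ReducedWord.prod_cons, ← mul_assoc]
        have e1 := t_zpow_mul_of (φ := φ) i u ⟨g, hmem⟩
        simp only at e1
        rw [e1, Units.val_neg, zpow_neg, mul_assoc, mul_inv_cancel_left]
      rw [e, len_of_mul, len_eq, len_eq]
      simp only [ReducedWord.cons_toList, List.length_cons]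
      omega

end MHNN

end Claimed.Agent.R152.H
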