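/-
Row 152, generic library (helper22).  WEIGHTED SEQUENCES in multiple HNN extensions and NON-ABSORBABLE REPRESENTATIVES of the right cosets of `Sub S J`.
A weight is a family of subsets `Wt n ⊆ G`, subadditive, monotone and invariant under the isomorphisms of the associated subgroups. Then removing
a pinch does not increase the total weight of a sequence `g₀ t^{u₁} g₁ ⋯ t^{uₘ} gₘ`, so every element has a REDUCED form whose total weight is at most the
weight of any given expression.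
-/
import Claimed.Agent.R152.H.MHNNSub

set_option autoImplicit false

namespace Claimed.Agent.R152.H

open Subgroup Function
open HNNExtension (toSubgroup toSubgroupEquiv)

variable {G : Type*} [Group G] {ι : Type*} {A B : ι → Subgroup G} {φ : ∀ i, A i ≃* B i}

namespace MHNN

open NormalWord

variable (φ) in
/-- The value of the sequence `g₀ t^{u₁} g₁ ⋯`. -/
def seqProd (g₀ : G) (l : List ((ι × ℤˣ) × G)) : MHNN G A B φ :=
  of g₀ * (l.map (fun x => t x.1.1 ^ (x.1.2 : ℤ) * of x.2)).prod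

theorem seqProd_nil (g₀ : G) : seqProd φ g₀ [] = of g₀ := by
  simp [seqProd]

theorem seqProd_cons (g₀ : G) (x : (ι × ℤˣ) × G) (l : List ((ι × ℤˣ) × G)) :
    seqProd φ g₀ (x :: l) = of g₀ * t x.1.1 ^ (x.1.2 : ℤ) * seqProd φ x.2 l := by
  simp [seqProd, mul_assoc]

theorem seqProd_mul (g g₀ : G) (l : List ((ι × ℤˣ) × G)) :
    seqProd φ (g * g₀) l = of g * seqProd φ g₀ l := by
  simp [seqProd, mul_assoc]

theorem seqProd_append (g₀ : G) (l₁ : List ((ι × ℤˣ) × G)) (x : (ι × ℤˣ) × G) (l₂ : List ((ι × ℤˣ) × G)) :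
    seqProd φ g₀ (l₁ ++ x :: l₂) = seqProd φ g₀ l₁ * t x.1.1 ^ (x.1.2 : ℤ) * seqProd φ x.2 l₂ := by
  simp [seqProd, mul_assoc]

theorem prod_eq_seqProd (w : ReducedWord G A B) : w.prod φ = seqProd φ w.head w.toList := rfl

variable (φ) in
/-- Weights. -/
structure IsWt (Wt : ℕ → G → Prop) : Prop where
  one : Wt 0 1
  mono : ∀ {n m : ℕ} {g : G}, n ≤ m → Wt n g → Wt m g
  mul : ∀ {n m : ℕ} {g g' : G}, Wt n g → Wt m g' → Wt (n + m) (g * g')
  pinch : ∀ (i : ι) (u : ℤˣ) (c : toSubgroup (A i) (B i) u) (n : ℕ), Wt n (c : G) →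
    Wt n (toSubgroupEquiv (φ i) u c : G)

/-- `WSeq Wt n g₀ l`: the entries of the sequence have weights with sum `≤ n`. -/
def WSeq (Wt : ℕ → G → Prop) : ℕ → G → List ((ι × ℤˣ) × G) → Prop
  | n, g, [] => Wt n g
  | n, g, x :: l => ∃ a b, a + b ≤ n ∧ Wt a g ∧ WSeq Wt b x.2 l

variable {Wt : ℕ → G → Prop}

theorem WSeq.mono (hW : IsWt φ Wt) {n m : ℕ} (hnm : n ≤ m) {g : G} {l : List ((ι × ℤˣ) × G)}
    (h : WSeq Wt n g l) : WSeq Wt m g l := by
  cases l with
  | nil => exact hW.mono hnm h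
  | cons x l =>
    obtain ⟨a, b, hab, h1, h2⟩ := h
    exact ⟨a, b, hab.trans hnm, h1, h2⟩

/-- Left multiplication of the head. -/
theorem WSeq.smul (hW : IsWt φ Wt) {a b : ℕ} {g g' : G} {l : List ((ι × ℤˣ) × G)} (hg : Wt a g)
    (h : WSeq Wt b g' l) : WSeq Wt (a + b) (g * g') l := by
  cases l with
  | nil => exact hW.mul hg h
  | cons x l =>
    obtain ⟨a', b', hab, h1, h2⟩ := h
    exact ⟨a + a', b', by omega, hW.mul hg h1, h2⟩

/-- Prepending a stable letter costs nothing. -/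
theorem WSeq.cons_t (hW : IsWt φ Wt) {n : ℕ} {g : G} {l : List ((ι × ℤˣ) × G)} (i : ι) (u : ℤˣ)
    (h : WSeq Wt n g l) : WSeq Wt n 1 (((i, u), g) :: l) := by
  exact ⟨0, n, by omega, hW.one, h⟩

/-- Every entry has weight `≤ n`. -/
theorem WSeq.forall (hW : IsWt φ Wt) {n : ℕ} {g : G} {l : List ((ι × ℤˣ) × G)} (h : WSeq Wt n g l) :
    Wt n g ∧ ∀ x ∈ l, Wt n x.2 := by
  induction l generalizing n g with
  | nil => exact ⟨h, by simp⟩
  | cons x l ih =>
    obtain ⟨a, b, hab, h1, h2⟩ := h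
    obtain ⟨h3, h4⟩ := ih h2
    refine ⟨hW.mono (by omega) h1, fun y hy => ?_⟩
    rcases List.mem_cons.1 hy with rfl | hy
    · exact hW.mono (by omega) h3
    · exact hW.mono (by omega) (h4 y hy)

/-- The product of the entries of a prefix, and the rest. (Induction on `l₁`.) -/
theorem WSeq.split (hW : IsWt φ Wt) {n : ℕ} {g : G} {l₁ : List ((ι × ℤˣ) × G)} {x : (ι × ℤˣ) × G}
    {l₂ : List ((ι × ℤˣ) × G)} (h : WSeq Wt n g (l₁ ++ x :: l₂)) :
    ∃ a b, a + b ≤ n ∧ Wt a (g * (l₁.map Prod.snd).prod) ∧ WSeq Wt b x.2 l₂ := by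
  induction l₁ generalizing n g with
  | nil =>
    obtain ⟨a, b, hab, h1, h2⟩ := h
    exact ⟨a, b, hab, by simpa using h1, h2⟩
  | cons y l₁ ih =>
    obtain ⟨a, b, hab, h1, h2⟩ := h
    obtain ⟨a', b', hab', h3, h4⟩ := ih h2
    refine ⟨a + a', b', by omega, ?_, h4⟩
    have h5 := hW.mul h1 h3
    simpa using h5

/-- WEIGHTED REDUCTION. Induction on `l` (generalizing `n`, `g₀`). `l = x :: l'`, `x = ((i,u),g)`: `a + b ≤ n`, `Wt a g₀`, `WSeq b g l'`; by induction a reduced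
`w'` with `w'.prod = seqProd g l'`, `WSeq b w'.head w'.toList`. If `ReducedWord.cons g₀ i u w'` is allowed, take it. Otherwise (`cases_cons`)
`w' = cons g' i (-u) w''` with `g' ∈ toSubgroup u`: `g₀ t^u g' t^{-u} ⋯ = g₀ ψ_u(g') ⋯` (`t_zpow_mul_of`), take `smulBase (g₀ * ψ_u(g')) w''`;
weights: `WSeq b` of `w'` is `a' + b' ≤ b`, `Wt a' g'`, `WSeq b' w''`; `pinch`, `mul`, `WSeq.smul`, `WSeq.mono`. -/
theorem exists_reducedWord_wseq (hW : IsWt φ Wt) {n : ℕ} {g₀ : G} {l : List ((ι × ℤˣ) × G)}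
    (h : WSeq Wt n g₀ l) :
    ∃ w : ReducedWord G A B, w.prod φ = seqProd φ g₀ l ∧ WSeq Wt n w.head w.toList := by
  induction l generalizing n g₀ with
  | nil => exact ⟨ReducedWord.ofGroup g₀, by rw [ReducedWord.prod_ofGroup, seqProd_nil], h⟩
  | cons x l ih =>
    obtain ⟨⟨i, u⟩, g⟩ := x
    obtain ⟨a, b, hab, h1, h2⟩ := h
    have h2' : WSeq Wt b g l := h2
    obtain ⟨w', hw', hW'⟩ := ih h2'
    by_cases hp : ∀ p ∈ Option.map Prod.fst w'.toList.head?,
        w'.head ∈ toSubgroup (A i) (B i) u → i = p.1 → u = p.2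
    · refine ⟨ReducedWord.cons g₀ i u w' hp, ?_, a, b, hab, h1, hW'⟩
      rw [ReducedWord.prod_cons, seqProd_cons, hw', mul_assoc]
    · push Not at hp
      obtain ⟨p, hp1, hmem, hip, hup⟩ := hp
      rcases ReducedWord.cases_cons w' with ⟨g', rfl⟩ | ⟨g', i', u', w'', h'', rfl⟩
      · simp at hp1
      · simp only [ReducedWord.cons_toList, List.head?_cons, Option.map_some, Option.mem_def,
          Option.some.injEq] at hp1
        subst hp1
        simp only at hip hup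
        subst hip
        have hu' : u' = -u := Int.units_ne_iff_eq_neg.1 (fun e => hup e.symm)
        subst hu'
        simp only [ReducedWord.cons_head] at hmem
        obtain ⟨a', b', hab', h3, h4⟩ := hW'
        have h3' : Wt a' g' := h3
        have h4' : WSeq Wt b' w''.head w''.toList := h4
        have h5 := hW.pinch i u ⟨g', hmem⟩ a' h3'
        refine ⟨ReducedWord.smulBase (g₀ * (toSubgroupEquiv (φ i) u ⟨g', hmem⟩ : G)) w'', ?_, ?_⟩
        · have e := t_zpow_mul_of (φ := φ) i u ⟨g', hmem⟩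
          rw [ReducedWord.prod_smulBase, seqProd_cons, ← hw', ReducedWord.prod_cons, map_mul]
          dsimp only
          rw [mul_assoc (of g₀) (t i ^ (u : ℤ)), ← mul_assoc (t i ^ (u : ℤ)) (of g'), e]
          simp [mul_assoc]
        · exact WSeq.mono hW (by omega) (WSeq.smul hW (hW.mul h1 h5) h4')

variable (A B) in
/-- The first step of the absorption from the left fails. -/
def NAb (S : Subgroup G) (J : Set ι) : G → List ((ι × ℤˣ) × G) → Prop
  | g, [] => g ∉ S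
  | g, x :: _ => ¬ (x.1.1 ∈ J ∧ ∃ b ∈ toSubgroup (A x.1.1) (B x.1.1) (-x.1.2), g * b ∈ S)

/-- SOUNDNESS (`mem_sub_iff`: the first step of `Absorb` fails). -/
theorem not_mem_sub_of_nab {S : Subgroup G} {J : Set ι} (h : Compat φ S J) (w : ReducedWord G A B)
    (hw : NAb A B S J w.head w.toList) : w.prod φ ∉ Sub φ S J := by
  intro hmem
  have hab := (mem_sub_iff h w).1 hmem
  revert hw hab
  generalize w.head = g
  generalize w.toList = l
  intro hw hab
  cases l with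
  | nil => exact hw hab
  | cons x l =>
    obtain ⟨hJ, b, hb, _⟩ := hab
    exact hw ⟨hJ, b, b.2, hb⟩

/-- `NAb` only depends on the coset `S g`. -/
theorem nab_mul_left {S : Subgroup G} {J : Set ι} {s : G} (hs : s ∈ S) (g : G) (l : List ((ι × ℤˣ) × G)) :
    NAb A B S J (s * g) l ↔ NAb A B S J g l := by
  cases l with
  | nil => exact not_congr (S.mul_mem_cancel_left hs)
  | cons x l =>
    refine not_congr (and_congr_right fun _ => exists_congr fun b => and_congr_right fun _ => ?_)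
    rw [mul_assoc]
    exact S.mul_mem_cancel_left hs

/-- COMPLETENESS: greedy absorption. Induction on `l` generalizing `g`. `l = []`: `g ∉ S` (`of_mem_sub`). `l = x :: l'`, `x = ((i,u),g₁)`: if `NAb` fails, `i ∈ J`,
`b ∈ toSubgroup (-u)`, `g b ∈ S`; `c₀ := ψ_{-u}(b)⁻¹ ∈ toSubgroup u`, `of g * t^u = of (g b) * t^u * of c₀` (`of_mul_t_zpow`). Apply the induction hypothesis to `(c₀ * g₁, l')`, whose
value is `(of (g b) t^u)⁻¹ * seqProd g l ∉ Sub`. -/
theorem exists_nab (S : Subgroup G) (J : Set ι) (g : G) (l : List ((ι × ℤˣ) × G))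
    (hw : seqProd φ g l ∉ Sub φ S J) :
    NAb A B S J g l ∨
    ∃ (l₁ : List ((ι × ℤˣ) × G)) (x : (ι × ℤˣ) × G) (l₂ : List ((ι × ℤˣ) × G)) (s : MHNN G A B φ) (c : G),
      l = l₁ ++ x :: l₂ ∧ s ∈ Sub φ S J ∧ c ∈ toSubgroup (A x.1.1) (B x.1.1) x.1.2 ∧
      seqProd φ g l₁ * t x.1.1 ^ (x.1.2 : ℤ) = s * of c ∧ NAb A B S J (c * x.2) l₂ := by
  induction l generalizing g with
  | nil =>
    left
    intro hg
    exact hw (by rw [seqProd_nil]; exact of_mem_sub J hg)
  | cons x l ih =>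
    by_cases hN : NAb A B S J g (x :: l)
    · exact Or.inl hN
    · right
      have hN' : x.1.1 ∈ J ∧ ∃ b ∈ toSubgroup (A x.1.1) (B x.1.1) (-x.1.2), g * b ∈ S :=
        not_not.1 hN
      obtain ⟨hJ, b, hb, hgb⟩ := hN'
      obtain ⟨c₀, hc₀⟩ : ∃ c₀ : G,
          c₀ = (toSubgroupEquiv (φ x.1.1) (-x.1.2) ⟨b, hb⟩ : G)⁻¹ := ⟨_, rfl⟩
      have hc₀mem : c₀ ∈ toSubgroup (A x.1.1) (B x.1.1) x.1.2 := by
        rw [hc₀]
        have h1 : ∀ v : ℤˣ, v = x.1.2 → ∀ z : toSubgroup (A x.1.1) (B x.1.1) v,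
            (z : G) ∈ toSubgroup (A x.1.1) (B x.1.1) x.1.2 := by
          rintro v rfl z
          exact z.2
        exact inv_mem (h1 _ (neg_neg _) _)
      have e0 : (of g : MHNN G A B φ) * t x.1.1 ^ (x.1.2 : ℤ)
          = of (g * b) * t x.1.1 ^ (x.1.2 : ℤ) * of c₀ := by
        have h2 := of_mul_t_zpow (φ := φ) x.1.1 x.1.2 ⟨b, hb⟩
        rw [map_mul, mul_assoc (of g), h2, hc₀, map_inv]
        simp [mul_assoc]
      have hs : (of (g * b) * t x.1.1 ^ (x.1.2 : ℤ) : MHNN G A B φ) ∈ Sub φ S J :=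
        mul_mem (of_mem_sub J hgb) (t_zpow_mem_sub S hJ _)
      have e1 : seqProd φ g (x :: l)
          = (of (g * b) * t x.1.1 ^ (x.1.2 : ℤ)) * seqProd φ (c₀ * x.2) l := by
        rw [seqProd_cons, e0, seqProd_mul, mul_assoc]
      have hw' : seqProd φ (c₀ * x.2) l ∉ Sub φ S J := by
        intro hmem
        exact hw (by rw [e1]; exact mul_mem hs hmem)
      rcases ih (c₀ * x.2) hw' with h3 | ⟨l₁, y, l₂, s, c, hl, hsm, hc, he, hn⟩
      · exact ⟨[], x, l, _, c₀, rfl, hs, hc₀mem, by rw [seqProd_nil, e0], h3⟩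
      · refine ⟨x :: l₁, y, l₂, (of (g * b) * t x.1.1 ^ (x.1.2 : ℤ)) * s, c, by rw [hl]; rfl,
          mul_mem hs hsm, hc, ?_, hn⟩
        rw [seqProd_cons, e0, mul_assoc _ (of c₀), ← seqProd_mul, mul_assoc _ _ (t y.1.1 ^ _), he]
        simp only [mul_assoc]

/-- A tail of a reduced word, with a new head, is a reduced word. -/
def ReducedWord.tail (w : ReducedWord G A B) (c : G) (l₁ : List ((ι × ℤˣ) × G)) (x : (ι × ℤˣ) × G)
    (l₂ : List ((ι × ℤˣ) × G)) (h : w.toList = l₁ ++ x :: l₂) : ReducedWord G A B where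
  head := c * x.2
  toList := l₂
  chain := by
    have h1 := w.chain
    rw [h] at h1
    exact ((List.isChain_append.1 h1).2.1).tail

end MHNN

end Claimed.Agent.R152.H
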